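import Vale.Agent.P200.W.Point

/-!
There are powers of linear forms `h_i = l_i ^ (p - a i)` such that the `f_i h_i` are m-primary: replace one form after the
other.  If `F` is m-primary then there is a linear form `l` with `update F i l` m-primary
(`exists_linear_replacement`), and then `update F i (F i * l^e)` is m-primary (a prime ideal containing it contains
`F i` or `l`; `isMPrimary_iff_radical`, `M.isMPrimary_of_height` or similar).
-/

namespace Vale.Agent.P200.X

open MvPolynomial Module
open Vale.Agent.P200.B Vale.Agent.P200.G Vale.Agent.P200.L Vale.Agent.P200.M Vale.Agent.P200.V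

universe u

theorem y5_update_mul {K : Type u} [Field K] {n : ℕ} (F : Fin n → MvPolynomial (Fin n) K)
    (k : Fin n) (l : MvPolynomial (Fin n) K) (e : ℕ)
    (h1 : IsMPrimary (Ideal.span (Set.range F)))
    (h2 : IsMPrimary (Ideal.span (Set.range (Function.update F k l)))) :
    IsMPrimary (Ideal.span (Set.range (Function.update F k (F k * l ^ e)))) := by
  classical
  rw [isMPrimary_iff_radical] at h1 h2 ⊢
  intro i
  rw [Ideal.radical_eq_sInf, Ideal.mem_sInf]
  rintro P ⟨hP, hPp⟩
  have hk : F k * l ^ e ∈ P := hP (Ideal.subset_span ⟨k, Function.update_self _ _ _⟩)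
  have hj : ∀ j, j ≠ k → F j ∈ P := fun j hj =>
    hP (Ideal.subset_span ⟨j, Function.update_of_ne hj _ _⟩)
  rcases hPp.mem_or_mem hk with h | h
  · have h3 : Ideal.span (Set.range F) ≤ P := by
      rw [Ideal.span_le]
      rintro _ ⟨j, rfl⟩
      by_cases hjk : j = k
      · rw [hjk]; exact h
      · exact hj j hjk
    exact hPp.radical_le_iff.2 h3 (h1 i)
  · have h4 := hPp.mem_of_pow_mem _ h
    have h3 : Ideal.span (Set.range (Function.update F k l)) ≤ P := by
      rw [Ideal.span_le]
      rintro _ ⟨j, rfl⟩
      by_cases hjk : j = k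
      · rw [hjk, Function.update_self]; exact h4
      · rw [Function.update_of_ne hjk]; exact hj j hjk
    exact hPp.radical_le_iff.2 h3 (h2 i)

theorem y5_aux {K : Type u} [Field K] [Infinite K] {n p : ℕ}
    (a : Fin n → ℕ) (hpos : ∀ i, 1 ≤ a i)
    (f : Fin n → MvPolynomial (Fin n) K) (hf : ∀ i, (f i).IsHomogeneous (a i))
    (hm : IsMPrimary (Ideal.span (Set.range f))) (s : Finset (Fin n)) :
    ∃ h : Fin n → MvPolynomial (Fin n) K,
      (∀ i, (h i).IsHomogeneous (if i ∈ s then p - a i else 0)) ∧ (∀ i, i ∉ s → h i = 1) ∧
      IsMPrimary (Ideal.span (Set.range fun i => f i * h i)) := by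
  classical
  induction s using Finset.induction_on with
  | empty =>
    refine ⟨fun _ => 1, fun i => ?_, fun _ _ => rfl, ?_⟩
    · simpa using isHomogeneous_one (Fin n) K
    · simpa using hm
  | insert k s hk ih =>
    obtain ⟨h, hh, h1, hM⟩ := ih
    obtain ⟨l, hl, hl2⟩ := exists_linear_replacement
      (fun i => a i + if i ∈ s then p - a i else 0) (fun i => le_add_right (hpos i))
      (fun i => f i * h i) (fun i => (hf i).mul (hh i)) hM k
    have h3 := y5_update_mul (fun i => f i * h i) k l (p - a k) hM hl2
    refine ⟨Function.update h k (l ^ (p - a k)), fun i => ?_, fun i hi => ?_, ?_⟩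
    · by_cases hik : i = k
      · subst hik
        rw [Function.update_self, if_pos (Finset.mem_insert_self _ _)]
        simpa using hl.pow (p - a i)
      · rw [Function.update_of_ne hik]
        have h4 : (i ∈ insert k s) ↔ i ∈ s := by simp [hik]
        simp only [h4]
        exact hh i
    · rw [Finset.mem_insert, not_or] at hi
      rw [Function.update_of_ne hi.1]
      exact h1 i hi.2
    · have h5 : (fun i => f i * Function.update h k (l ^ (p - a k)) i) =
          Function.update (fun i => f i * h i) k ((fun i => f i * h i) k * l ^ (p - a k)) := by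
        funext i
        by_cases hik : i = k
        · subst hik
          rw [Function.update_self, Function.update_self]
          show f i * l ^ (p - a i) = f i * h i * l ^ (p - a i)
          rw [h1 i hk, mul_one]
        · rw [Function.update_of_ne hik, Function.update_of_ne hik]
      rw [h5]
      exact h3

theorem exists_mult {K : Type u} [Field K] [IsAlgClosed K] {n p : ℕ}
    (a : Fin n → ℕ) (hpos : ∀ i, 1 ≤ a i) (hap : ∀ i, a i ≤ p)
    (f : Fin n → MvPolynomial (Fin n) K) (hf : ∀ i, (f i).IsHomogeneous (a i))
    (hm : IsMPrimary (Ideal.span (Set.range f))) :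
    ∃ h : Fin n → MvPolynomial (Fin n) K, (∀ i, (h i).IsHomogeneous (p - a i)) ∧
      IsMPrimary (Ideal.span (Set.range fun i => f i * h i)) := by
  have : Infinite K := IsAlgClosed.instInfinite
  obtain ⟨h, h1, -, h2⟩ := y5_aux (p := p) a hpos f hf hm Finset.univ
  exact ⟨h, fun i => by simpa using h1 i, h2⟩

end Vale.Agent.P200.X
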