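import Vale.Agent.P200.W.Degen

/-!
Combinatorics: from the dimensions `t s e` of the slices to a monomial ideal.

`M` = exponents `cons m0 (cons m1 s)` with `a2 ≤ m1` or `m1 < t s (m0 + m1) - (m0 + m1 + 1 - a2)` (truncated
subtraction in `ℕ`).
Facts: `ht0`: `e + 1 - a1 + (e + 1 - a2) ≤ t s e` or `t s e = e + 1` for all `s, e` (for `s = 0` by induction on `e` starting with
`1 ≤ t 0 a1`, using `h1`, `h2`; note that for `a1 = a2 = e` one uses `h2` with `e - 1`; then `hs` by induction on `s`).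
Up-closed: in direction `0`, `m1 < a2`: need `t s (e+1) ≥ t s e` when `e + 2 ≤ a2`, and `≥ t s e + 1` when `a2 ≤ e + 1`
(`h1`; `t s e > 0` because `m1 < ...`).  In direction `1`: if `m1 + 1 < a2`: need `+ 1` when `e + 2 ≤ a2` (`h1`) and `+ 2` (`h2`) when
`a2 ≤ e + 1`; if `t s (e+1) = e + 2` the condition holds automatically.  In the other directions by `hs`.
Counting: for fixed `s` and `e` the number of `(m0, m1)` with `m0 + m1 = e` in `M` is `t s e`.
-/

namespace Vale.Agent.P200.X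

theorem xx_comb_t0 {k : ℕ} (t : (Fin k →₀ ℕ) → ℕ → ℕ) (a1 : ℕ)
    (h1 : ∀ s e, 0 < t s e → t s e + 1 ≤ t s (e + 1)) (h3 : 1 ≤ t 0 a1) :
    ∀ e, a1 ≤ e → e + 1 - a1 ≤ t 0 e := by
  intro e he
  induction e, he using Nat.le_induction with
  | base => omega
  | succ n hn ih =>
    have h := h1 0 n (by omega)
    omega

theorem xx_comb_mono {k : ℕ} (t : (Fin k →₀ ℕ) → ℕ → ℕ)
    (hs : ∀ s e i, t s e ≤ t (s + Finsupp.single i 1) e) (e : ℕ) (s : Fin k →₀ ℕ) :
    t 0 e ≤ t s e := by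
  have key : ∀ (s : Fin k →₀ ℕ) (i : Fin k) (n : ℕ), t s e ≤ t (s + Finsupp.single i n) e := by
    intro s i n
    induction n with
    | zero => simp
    | succ n ih =>
      refine ih.trans ?_
      have := hs (s + Finsupp.single i n) e i
      rwa [add_assoc, ← Finsupp.single_add] at this
  induction s using Finsupp.induction with
  | zero => exact le_rfl
  | single_add i n f _ _ ih =>
    refine ih.trans ?_
    rw [add_comm]
    exact key f i n

theorem xx_comb_low {k : ℕ} (t : (Fin k →₀ ℕ) → ℕ → ℕ) (a1 a2 : ℕ) (h12 : a1 ≤ a2)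
    (hs : ∀ s e i, t s e ≤ t (s + Finsupp.single i 1) e)
    (h1 : ∀ s e, 0 < t s e → t s e + 1 ≤ t s (e + 1)) (h3 : 1 ≤ t 0 a1)
    (s : Fin k →₀ ℕ) (e : ℕ) : e + 1 - a2 ≤ t s e := by
  by_cases he : a1 ≤ e
  · have := xx_comb_t0 t a1 h1 h3 e he
    have := xx_comb_mono t hs e s
    omega
  · omega

/-- the monomial ideal -/
def xx_comb_M {k : ℕ} (t : (Fin k →₀ ℕ) → ℕ → ℕ) (a2 : ℕ) : Set (Fin (k + 2) →₀ ℕ) :=
  {m | a2 ≤ m 1 ∨ m 1 < t m.tail.tail (m 0 + m 1) - (m 0 + m 1 + 1 - a2)}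

theorem xx_comb_mem {k : ℕ} (t : (Fin k →₀ ℕ) → ℕ → ℕ) (a2 a b : ℕ) (s : Fin k →₀ ℕ) :
    Finsupp.cons a (Finsupp.cons b s) ∈ xx_comb_M t a2 ↔
      (a2 ≤ b ∨ b < t s (a + b) - (a + b + 1 - a2)) := by
  have h0 : (Finsupp.cons a (Finsupp.cons b s) : Fin (k + 2) →₀ ℕ) 0 = a := Finsupp.cons_zero _ _
  have h1 : (Finsupp.cons a (Finsupp.cons b s) : Fin (k + 2) →₀ ℕ) 1 = b := by
    have : (1 : Fin (k + 2)) = Fin.succ 0 := rfl
    rw [this, Finsupp.cons_succ, Finsupp.cons_zero]
  simp only [xx_comb_M, Set.mem_setOf_eq, h0, h1, Finsupp.tail_cons]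

theorem xx_comb_eta {k : ℕ} (m : Fin (k + 2) →₀ ℕ) :
    ∃ (a b : ℕ) (s : Fin k →₀ ℕ), m = Finsupp.cons a (Finsupp.cons b s) := by
  refine ⟨m 0, m.tail 0, m.tail.tail, ?_⟩
  rw [Finsupp.cons_tail, Finsupp.cons_tail]

theorem xx_comb_add0 {k : ℕ} (a : ℕ) (s : Fin k →₀ ℕ) :
    Finsupp.cons a s + Finsupp.single 0 1 = Finsupp.cons (a + 1) s := by
  ext i
  refine Fin.cases ?_ ?_ i
  · simp
  · intro j
    simp [Finsupp.single_apply, Fin.succ_ne_zero, (Fin.succ_ne_zero j).symm]

theorem xx_comb_addS {k : ℕ} (a : ℕ) (s : Fin k →₀ ℕ) (j : Fin k) (n : ℕ) :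
    Finsupp.cons a s + Finsupp.single j.succ n = Finsupp.cons a (s + Finsupp.single j n) := by
  ext i
  refine Fin.cases ?_ ?_ i
  · simp [Finsupp.single_apply, Fin.succ_ne_zero]
  · intro l
    simp [Finsupp.single_apply, Fin.succ_inj]

theorem xx_comb_zero {k : ℕ} :
    (0 : Fin (k + 2) →₀ ℕ) = Finsupp.cons 0 (Finsupp.cons 0 0) := by
  rw [Finsupp.cons_zero_zero, Finsupp.cons_zero_zero]

theorem comb {k : ℕ} (t : (Fin k →₀ ℕ) → ℕ → ℕ) (a1 a2 p : ℕ) (ha1 : 1 ≤ a1) (h12 : a1 ≤ a2)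
    (hle : ∀ s e, t s e ≤ e + 1)
    (hs : ∀ s e i, t s e ≤ t (s + Finsupp.single i 1) e)
    (h1 : ∀ s e, 0 < t s e → t s e + 1 ≤ t s (e + 1))
    (h2 : ∀ s e, a2 ≤ e + 1 → t s e + 2 ≤ t s (e + 1) ∨ t s (e + 1) = e + 2)
    (h3 : 1 ≤ t 0 a1) (hp : ∀ i, t (Finsupp.single i p) 0 = 1) :
    ∃ M : Set (Fin (k + 2) →₀ ℕ), (∀ m ∈ M, ∀ i, m + Finsupp.single i 1 ∈ M) ∧
      Finsupp.single 0 a1 ∈ M ∧ Finsupp.single 1 a2 ∈ M ∧
      (∀ i : Fin k, Finsupp.single i.succ.succ p ∈ M) ∧
      ∀ (s : Fin k →₀ ℕ) (e : ℕ),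
        {m : Fin 2 →₀ ℕ | m 0 + m 1 = e ∧ Finsupp.cons (m 0) (Finsupp.cons (m 1) s) ∈ M}.ncard =
          t s e := by
  have low := xx_comb_low t a1 a2 h12 hs h1 h3
  refine ⟨xx_comb_M t a2, ?_, ?_, ?_, ?_, ?_⟩
  · intro m hm i
    obtain ⟨a, b, s, rfl⟩ := xx_comb_eta m
    rw [xx_comb_mem] at hm
    refine Fin.cases ?_ ?_ i
    · rw [xx_comb_add0, xx_comb_mem]
      rcases hm with hm | hm
      · exact Or.inl hm
      · by_cases hb : a2 ≤ b
        · exact Or.inl hb
        right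
        have := h1 s (a + b) (by omega)
        have e1 : a + 1 + b = a + b + 1 := by ring
        rw [e1]
        omega
    · intro j
      rw [xx_comb_addS]
      refine Fin.cases ?_ ?_ j
      · rw [xx_comb_add0, xx_comb_mem]
        rcases hm with hm | hm
        · exact Or.inl (by omega)
        · by_cases hb : a2 ≤ b + 1
          · exact Or.inl hb
          right
          have e1 : a + (b + 1) = a + b + 1 := by ring
          rw [e1]
          by_cases hc : a2 ≤ a + b + 1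
          · rcases h2 s (a + b) hc with h | h <;> omega
          · have := h1 s (a + b) (by omega)
            omega
      · intro l
        rw [xx_comb_addS, xx_comb_mem]
        rcases hm with hm | hm
        · exact Or.inl hm
        · right
          have := hs s (a + b) l
          omega
  · have : (Finsupp.single 0 a1 : Fin (k + 2) →₀ ℕ) = Finsupp.cons a1 (Finsupp.cons 0 0) := by
      ext i
      refine Fin.cases ?_ ?_ i
      · simp
      · intro j
        rw [Finsupp.cons_zero_zero, Finsupp.cons_succ]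
        simp [Finsupp.single_apply, (Fin.succ_ne_zero j).symm]
    rw [this, xx_comb_mem]
    right
    simp only [add_zero]
    rcases Nat.lt_or_ge a1 a2 with h | h
    · omega
    · obtain ⟨e, rfl⟩ : ∃ e, a1 = e + 1 := ⟨a1 - 1, by omega⟩
      rcases h2 0 e (by omega) with h' | h' <;> omega
  · have : (Finsupp.single 1 a2 : Fin (k + 2) →₀ ℕ) = Finsupp.cons 0 (Finsupp.cons a2 0) := by
      have e0 := xx_comb_addS 0 (0 : Fin (k + 1) →₀ ℕ) 0 a2
      rw [Finsupp.cons_zero_zero, zero_add, zero_add] at e0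
      have e1 : (Finsupp.single 0 a2 : Fin (k + 1) →₀ ℕ) = Finsupp.cons a2 0 := by
        ext i
        refine Fin.cases ?_ ?_ i
        · simp
        · intro j
          simp [Finsupp.single_apply, (Fin.succ_ne_zero j).symm]
      rw [← e1]
      exact e0
    rw [this, xx_comb_mem]
    exact Or.inl le_rfl
  · intro i
    have : (Finsupp.single i.succ.succ p : Fin (k + 2) →₀ ℕ) =
        Finsupp.cons 0 (Finsupp.cons 0 (Finsupp.single i p)) := by
      have e0 := xx_comb_addS 0 (0 : Fin (k + 1) →₀ ℕ) i.succ p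
      rw [Finsupp.cons_zero_zero, zero_add, zero_add] at e0
      have e1 := xx_comb_addS 0 (0 : Fin k →₀ ℕ) i p
      rw [Finsupp.cons_zero_zero, zero_add, zero_add] at e1
      rw [← e1]
      exact e0
    rw [this, xx_comb_mem]
    right
    simp only [add_zero]
    rw [hp]
    omega
  · intro s e
    have hset : {m : Fin 2 →₀ ℕ | m 0 + m 1 = e ∧
        Finsupp.cons (m 0) (Finsupp.cons (m 1) s) ∈ xx_comb_M t a2} =
        (fun b : ℕ => (Finsupp.single 0 (e - b) + Finsupp.single 1 b : Fin 2 →₀ ℕ)) ''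
          (((Finset.range (e + 1)).filter
            (fun b => a2 ≤ b ∨ b < t s e - (e + 1 - a2)) : Finset ℕ) : Set ℕ) := by
      ext m
      simp only [Set.mem_setOf_eq, Set.mem_image, Finset.coe_filter, Finset.mem_range]
      constructor
      · rintro ⟨hme, hm⟩
        rw [xx_comb_mem, hme] at hm
        refine ⟨m 1, ⟨by omega, hm⟩, ?_⟩
        ext i
        fin_cases i
        · simp; omega
        · simp
      · rintro ⟨b, ⟨hb, hb2⟩, rfl⟩
        have v0 : (Finsupp.single 0 (e - b) + Finsupp.single 1 b : Fin 2 →₀ ℕ) 0 = e - b := by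
          simp
        have v1 : (Finsupp.single 0 (e - b) + Finsupp.single 1 b : Fin 2 →₀ ℕ) 1 = b := by
          simp
        rw [v0, v1, xx_comb_mem]
        have e1 : e - b + b = e := by omega
        rw [e1]
        exact ⟨rfl, hb2⟩
    rw [hset, Set.ncard_image_of_injOn, Set.ncard_coe_finset]
    · have hlow := low s e
      have hup := hle s e
      have hdis : (Finset.range (e + 1)).filter (fun b => a2 ≤ b ∨ b < t s e - (e + 1 - a2)) =
          Finset.Ico a2 (e + 1) ∪ Finset.range (t s e - (e + 1 - a2)) := by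
        ext b
        simp only [Finset.mem_filter, Finset.mem_range, Finset.mem_union, Finset.mem_Ico]
        omega
      rw [hdis, Finset.card_union_of_disjoint, Nat.card_Ico, Finset.card_range]
      · omega
      · rw [Finset.disjoint_left]
        intro b hb hb2
        simp only [Finset.mem_range, Finset.mem_Ico] at hb hb2
        omega
    · intro b hb c hc hbc
      have := DFunLike.congr_fun hbc 1
      simpa using this

end Vale.Agent.P200.X
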