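import Vale.Agent.P200.X.TwoVar
import Vale.Agent.P200.X.Comb

/-!
Slices of a graded left ideal `U` of `YR D (k+2)`.

For `s : Fin k →₀ ℕ` let `T s e` be the set of all `v ∈ YD D 2 e` such that some `u ∈ U (e + |s|)` has the form
`u = v z^s + (terms of exponents `cons m0 (cons m1 s')` with `wt B s' > wt B s`)`, `B` large (`B > e + |s|`; or use the order
`cl` / `w17low` of `W/Degen.lean`, which does not need a bound: `cl s s'`).  It is closed under `zv 0`, `zv 1`; `T s e ≤ T (s + single i 1) e` by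
multiplication with `zv i.succ.succ`; `r2 F ∈ T 0 a` for `F ∈ U a` (the exponents with `s = 0` are the lowest ones).
Dimensions: `inm B (U d)` (lowest monomials, the last variables are the heaviest) is the union of the `z^s inm (T s e)`,
so `finrank (U d) = ∑_{|s| ≤ d} finrank (T s (d - |s|))` (`ncard_inm`).
Then apply `comb` with `t s e = finrank D (T s e)`, using `one_var_growth`, `two_var` for `T s`
(all of them contain `r2 F1`, `r2 F2`).  `1 ≤ t 0 a1` since `r2 F1 ≠ 0`: otherwise `hcol` says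
`YD D 2 N ≤ YR * r2 F2`, impossible for dimension reasons (`N + 1 > N + 1 - a2`).
`t (single i p) 0 = 1`: `single (single i.succ.succ p) 1 ∈ U p`.
-/

namespace Vale.Agent.P200.X

open MvPolynomial Module
open Vale.Agent.P200.B Vale.Agent.P200.G Vale.Agent.P200.L Vale.Agent.P200.M
open Vale.Agent.P200.V Vale.Agent.P200.W

/-- the part without the last `k` variables -/
noncomputable def r2 {D : Type*} [DivisionRing D] {k : ℕ} (F : YR D (k + 2)) : YR D 2 :=
  AddMonoidAlgebra.ofCoeff (F.coeff.comapDomain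
    (fun m : Fin 2 →₀ ℕ => (Finsupp.cons (m 0) (Finsupp.cons (m 1) 0) : Fin (k + 2) →₀ ℕ))
    (by
      intro m _ m' _ h
      have h0 := DFunLike.congr_fun h 0
      have h1 := DFunLike.congr_fun h 1
      rw [Finsupp.cons_zero, Finsupp.cons_zero] at h0
      change Finsupp.cons (m 0) (Finsupp.cons (m 1) (0 : Fin k →₀ ℕ)) (Fin.succ 0) =
        Finsupp.cons (m' 0) (Finsupp.cons (m' 1) (0 : Fin k →₀ ℕ)) (Fin.succ 0) at h1
      rw [Finsupp.cons_succ, Finsupp.cons_succ, Finsupp.cons_zero, Finsupp.cons_zero] at h1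
      ext i
      fin_cases i
      · exact h0
      · exact h1))

/-- the exponent with first two entries `m` and last `k` entries `s` -/
noncomputable def xxSliceCc {k : ℕ} (m : Fin 2 →₀ ℕ) (s : Fin k →₀ ℕ) : Fin (k + 2) →₀ ℕ :=
  Finsupp.cons (m 0) (Finsupp.cons (m 1) s)

theorem xx_slice_cc_zero {k : ℕ} (m : Fin 2 →₀ ℕ) (s : Fin k →₀ ℕ) : xxSliceCc m s 0 = m 0 :=
  Finsupp.cons_zero _ _

theorem xx_slice_cc_one {k : ℕ} (m : Fin 2 →₀ ℕ) (s : Fin k →₀ ℕ) :
    xxSliceCc m s (Fin.succ 0) = m 1 := by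
  unfold xxSliceCc
  rw [Finsupp.cons_succ, Finsupp.cons_zero]

theorem xx_slice_cc_succ {k : ℕ} (m : Fin 2 →₀ ℕ) (s : Fin k →₀ ℕ) (i : Fin k) :
    xxSliceCc m s i.succ.succ = s i := by
  unfold xxSliceCc
  rw [Finsupp.cons_succ, Finsupp.cons_succ]

theorem xx_slice_ext {k : ℕ} {f g : Fin (k + 2) →₀ ℕ} (h0 : f 0 = g 0)
    (h1 : f (Fin.succ 0) = g (Fin.succ 0)) (h2 : ∀ i : Fin k, f i.succ.succ = g i.succ.succ) :
    f = g := by
  ext j
  induction j using Fin.cases with
  | zero => exact h0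
  | succ j =>
    induction j using Fin.cases with
    | zero => exact h1
    | succ j => exact h2 j

theorem xx_slice_ext2 {f g : Fin 2 →₀ ℕ} (h0 : f 0 = g 0) (h1 : f 1 = g 1) : f = g := by
  ext j
  fin_cases j
  · exact h0
  · exact h1

theorem xx_slice_cc_inj {k : ℕ} {m m' : Fin 2 →₀ ℕ} {s s' : Fin k →₀ ℕ}
    (h : xxSliceCc m s = xxSliceCc m' s') : m = m' ∧ s = s' := by
  refine ⟨xx_slice_ext2 ?_ ?_, ?_⟩
  · rw [← xx_slice_cc_zero m s, ← xx_slice_cc_zero m' s', h]
  · rw [← xx_slice_cc_one m s, ← xx_slice_cc_one m' s', h]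
  · ext i
    rw [← xx_slice_cc_succ m s, ← xx_slice_cc_succ m' s', h]

/-- the last `k` entries -/
noncomputable def xxSliceTl {k : ℕ} (f : Fin (k + 2) →₀ ℕ) : Fin k →₀ ℕ :=
  Finsupp.equivFunOnFinite.symm fun i => f i.succ.succ

theorem xx_slice_tl_cc {k : ℕ} (m : Fin 2 →₀ ℕ) (s : Fin k →₀ ℕ) :
    xxSliceTl (xxSliceCc m s) = s := by
  ext i
  exact xx_slice_cc_succ m s i

theorem xx_slice_exists {k : ℕ} (f : Fin (k + 2) →₀ ℕ) :
    ∃ m : Fin 2 →₀ ℕ, xxSliceCc m (xxSliceTl f) = f := by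
  refine ⟨Finsupp.equivFunOnFinite.symm ![f 0, f (Fin.succ 0)], ?_⟩
  apply xx_slice_ext
  · rw [xx_slice_cc_zero]
    rfl
  · rw [xx_slice_cc_one]
    rfl
  · intro i
    rw [xx_slice_cc_succ]
    rfl

theorem xx_slice_sum {k : ℕ} (m : Fin 2 →₀ ℕ) (s : Fin k →₀ ℕ) :
    ∑ i, xxSliceCc m s i = ∑ i, m i + ∑ i, s i := by
  rw [Fin.sum_univ_succ, Fin.sum_univ_succ, xx_slice_cc_zero, xx_slice_cc_one, Fin.sum_univ_two,
    add_assoc]
  simp only [xx_slice_cc_succ]

theorem xx_slice_cl_left {k : ℕ} (m m' : Fin 2 →₀ ℕ) {s s' : Fin k →₀ ℕ} (h : cl s' s) :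
    cl (xxSliceCc m' s') (xxSliceCc m s) := by
  obtain ⟨i, hi, hj⟩ := h
  refine ⟨i.succ.succ, ?_, fun j hij => ?_⟩
  · rw [xx_slice_cc_succ, xx_slice_cc_succ]
    exact hi
  · induction j using Fin.cases with
    | zero => exact absurd hij (Fin.not_lt_zero _)
    | succ j =>
      rw [Fin.succ_lt_succ_iff] at hij
      induction j using Fin.cases with
      | zero => exact absurd hij (Fin.not_lt_zero _)
      | succ j =>
        rw [Fin.succ_lt_succ_iff] at hij
        rw [xx_slice_cc_succ, xx_slice_cc_succ]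
        exact hj j hij

theorem xx_slice_cl_right {k : ℕ} {m m' : Fin 2 →₀ ℕ} (s : Fin k →₀ ℕ) (h : cl m' m) :
    cl (xxSliceCc m' s) (xxSliceCc m s) := by
  obtain ⟨i, hi, hj⟩ := h
  fin_cases i
  · refine ⟨0, ?_, fun j hij => ?_⟩
    · rw [xx_slice_cc_zero, xx_slice_cc_zero]
      exact hi
    · induction j using Fin.cases with
      | zero => exact absurd hij (lt_irrefl _)
      | succ j =>
        induction j using Fin.cases with
        | zero =>
          rw [xx_slice_cc_one, xx_slice_cc_one]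
          exact hj 1 (by decide)
        | succ j => rw [xx_slice_cc_succ, xx_slice_cc_succ]
  · refine ⟨Fin.succ 0, ?_, fun j hij => ?_⟩
    · rw [xx_slice_cc_one, xx_slice_cc_one]
      exact hi
    · induction j using Fin.cases with
      | zero => exact absurd hij (Fin.not_lt_zero _)
      | succ j =>
        rw [Fin.succ_lt_succ_iff] at hij
        induction j using Fin.cases with
        | zero => exact absurd hij (lt_irrefl _)
        | succ j => rw [xx_slice_cc_succ, xx_slice_cc_succ]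

theorem xx_slice_cl_cases {k : ℕ} {m m' : Fin 2 →₀ ℕ} {s s' : Fin k →₀ ℕ}
    (h : cl (xxSliceCc m' s') (xxSliceCc m s)) : cl s' s ∨ s' = s ∧ cl m' m := by
  obtain ⟨i, hi, hj⟩ := h
  induction i using Fin.cases with
  | zero =>
    right
    constructor
    · ext l
      have := hj l.succ.succ (Fin.succ_pos _)
      rwa [xx_slice_cc_succ, xx_slice_cc_succ] at this
    · refine ⟨0, ?_, fun j hij => ?_⟩
      · rwa [xx_slice_cc_zero, xx_slice_cc_zero] at hi
      · have h1 : j = 1 := by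
          fin_cases j
          · exact absurd hij (lt_irrefl _)
          · rfl
        have := hj (Fin.succ 0) (Fin.succ_pos _)
        rw [xx_slice_cc_one, xx_slice_cc_one] at this
        rw [h1]
        exact this
  | succ i =>
    induction i using Fin.cases with
    | zero =>
      right
      constructor
      · ext l
        have := hj l.succ.succ (Fin.succ_lt_succ_iff.2 (Fin.succ_pos _))
        rwa [xx_slice_cc_succ, xx_slice_cc_succ] at this
      · refine ⟨1, ?_, fun j hij => ?_⟩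
        · rwa [xx_slice_cc_one, xx_slice_cc_one] at hi
        · exfalso
          fin_cases j
          · exact absurd hij (by decide)
          · exact absurd hij (by decide)
    | succ i =>
      left
      refine ⟨i, ?_, fun j hij => ?_⟩
      · rwa [xx_slice_cc_succ, xx_slice_cc_succ] at hi
      · have := hj j.succ.succ (Fin.succ_lt_succ_iff.2 (Fin.succ_lt_succ_iff.2 hij))
        rwa [xx_slice_cc_succ, xx_slice_cc_succ] at this

theorem xx_slice_cl_add {n : ℕ} {s s' a : Fin n →₀ ℕ} (h : cl (s' + a) (s + a)) : cl s' s := by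
  obtain ⟨i, hi, hj⟩ := h
  refine ⟨i, ?_, fun j hij => ?_⟩
  · rw [Finsupp.add_apply, Finsupp.add_apply] at hi
    omega
  · have := hj j hij
    rw [Finsupp.add_apply, Finsupp.add_apply] at this
    omega

theorem xx_slice_not_cl_zero {n : ℕ} (s : Fin n →₀ ℕ) : ¬ cl s 0 := by
  rintro ⟨i, hi, -⟩
  rw [Finsupp.zero_apply] at hi
  exact absurd hi (Nat.not_lt_zero _)

theorem xx_slice_not_cl_self {n : ℕ} (s : Fin n →₀ ℕ) : ¬ cl s s := by
  rintro ⟨i, hi, -⟩
  exact absurd hi (lt_irrefl _)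

section T

variable {D : Type*} [DivisionRing D] {k : ℕ}

theorem xx_slice_coeff_zv0 (u : YR D (k + 2)) (m : Fin 2 →₀ ℕ) (s : Fin k →₀ ℕ) :
    (u * zv D (k + 2) 0).coeff (xxSliceCc m s) =
      if m 0 = 0 then 0 else u.coeff (xxSliceCc (m - Finsupp.single 0 1) s) := by
  rw [w17_coeff_mul_zv, xx_slice_cc_zero]
  have h : xxSliceCc m s - Finsupp.single 0 1 = xxSliceCc (m - Finsupp.single 0 1) s := by
    apply xx_slice_ext
    · rw [Finsupp.tsub_apply, xx_slice_cc_zero, xx_slice_cc_zero, Finsupp.tsub_apply,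
        Finsupp.single_eq_same, Finsupp.single_eq_same]
    · rw [Finsupp.tsub_apply, xx_slice_cc_one, xx_slice_cc_one, Finsupp.tsub_apply,
        Finsupp.single_eq_of_ne (by exact Fin.succ_ne_zero _),
        Finsupp.single_eq_of_ne (by decide)]
    · intro i
      rw [Finsupp.tsub_apply, xx_slice_cc_succ, xx_slice_cc_succ,
        Finsupp.single_eq_of_ne (by exact Fin.succ_ne_zero _), tsub_zero]
  rw [h]

theorem xx_slice_coeff_zv1 (u : YR D (k + 2)) (m : Fin 2 →₀ ℕ) (s : Fin k →₀ ℕ) :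
    (u * zv D (k + 2) (Fin.succ 0)).coeff (xxSliceCc m s) =
      if m 1 = 0 then 0 else u.coeff (xxSliceCc (m - Finsupp.single 1 1) s) := by
  rw [w17_coeff_mul_zv, xx_slice_cc_one]
  have h : xxSliceCc m s - Finsupp.single (Fin.succ 0) 1 =
      xxSliceCc (m - Finsupp.single 1 1) s := by
    apply xx_slice_ext
    · rw [Finsupp.tsub_apply, xx_slice_cc_zero, xx_slice_cc_zero, Finsupp.tsub_apply,
        Finsupp.single_eq_of_ne (by exact (Fin.succ_ne_zero _).symm),
        Finsupp.single_eq_of_ne (by decide)]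
    · rw [Finsupp.tsub_apply, xx_slice_cc_one, xx_slice_cc_one, Finsupp.tsub_apply,
        Finsupp.single_eq_same, Finsupp.single_eq_same]
    · intro i
      rw [Finsupp.tsub_apply, xx_slice_cc_succ, xx_slice_cc_succ,
        Finsupp.single_eq_of_ne
          (by exact fun h => Fin.succ_ne_zero _ (Fin.succ_injective _ h)), tsub_zero]
  rw [h]

theorem xx_slice_coeff_zvs (u : YR D (k + 2)) (m : Fin 2 →₀ ℕ) (s : Fin k →₀ ℕ) (i : Fin k) :
    (u * zv D (k + 2) i.succ.succ).coeff (xxSliceCc m s) =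
      if s i = 0 then 0 else u.coeff (xxSliceCc m (s - Finsupp.single i 1)) := by
  rw [w17_coeff_mul_zv, xx_slice_cc_succ]
  have h : xxSliceCc m s - Finsupp.single i.succ.succ 1 =
      xxSliceCc m (s - Finsupp.single i 1) := by
    apply xx_slice_ext
    · rw [Finsupp.tsub_apply, xx_slice_cc_zero, xx_slice_cc_zero,
        Finsupp.single_eq_of_ne (by exact (Fin.succ_ne_zero _).symm), tsub_zero]
    · rw [Finsupp.tsub_apply, xx_slice_cc_one, xx_slice_cc_one,
        Finsupp.single_eq_of_ne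
          (by exact fun h => Fin.succ_ne_zero _ (Fin.succ_injective _ h).symm), tsub_zero]
    · intro j
      rw [Finsupp.tsub_apply, xx_slice_cc_succ, xx_slice_cc_succ, Finsupp.tsub_apply]
      congr 1
      by_cases hij : j = i
      · rw [hij, Finsupp.single_eq_same, Finsupp.single_eq_same]
      · rw [Finsupp.single_eq_of_ne hij, Finsupp.single_eq_of_ne
          (by exact fun h => hij (Fin.succ_injective _ (Fin.succ_injective _ h)))]
  rw [h]

/-- the slices -/
noncomputable def xxSliceT (U : ℕ → Submodule D (YR D (k + 2))) (s : Fin k →₀ ℕ) (e : ℕ) :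
    Submodule D (YR D 2) where
  carrier := {v | v ∈ YD D 2 e ∧ ∃ u ∈ U (e + ∑ i, s i),
    (∀ m, u.coeff (xxSliceCc m s) = v.coeff m) ∧
      ∀ m s', cl s' s → u.coeff (xxSliceCc m s') = 0}
  add_mem' := by
    rintro a b ⟨ha, u, hu, h1, h2⟩ ⟨hb, u', hu', h1', h2'⟩
    refine ⟨add_mem ha hb, u + u', add_mem hu hu', fun m => ?_, fun m s' hs => ?_⟩
    · rw [AddMonoidAlgebra.coeff_add, Finsupp.add_apply, h1, h1', AddMonoidAlgebra.coeff_add,
        Finsupp.add_apply]
    · rw [AddMonoidAlgebra.coeff_add, Finsupp.add_apply, h2 m s' hs, h2' m s' hs, add_zero]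
  zero_mem' := by
    refine ⟨zero_mem _, 0, zero_mem _, fun m => ?_, fun m s' hs => ?_⟩
    · rw [AddMonoidAlgebra.coeff_zero, AddMonoidAlgebra.coeff_zero, Finsupp.zero_apply,
        Finsupp.zero_apply]
    · rw [AddMonoidAlgebra.coeff_zero, Finsupp.zero_apply]
  smul_mem' := by
    rintro c a ⟨ha, u, hu, h1, h2⟩
    refine ⟨Submodule.smul_mem _ _ ha, c • u, Submodule.smul_mem _ _ hu, fun m => ?_,
      fun m s' hs => ?_⟩
    · rw [AddMonoidAlgebra.coeff_smul_apply, h1, AddMonoidAlgebra.coeff_smul_apply]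
    · rw [AddMonoidAlgebra.coeff_smul_apply, h2 m s' hs, smul_zero]

theorem xx_slice_mem_T {U : ℕ → Submodule D (YR D (k + 2))} {s : Fin k →₀ ℕ} {e : ℕ}
    {v : YR D 2} : v ∈ xxSliceT U s e ↔ v ∈ YD D 2 e ∧ ∃ u ∈ U (e + ∑ i, s i),
      (∀ m, u.coeff (xxSliceCc m s) = v.coeff m) ∧
        ∀ m s', cl s' s → u.coeff (xxSliceCc m s') = 0 := Iff.rfl

theorem xx_slice_T_le (U : ℕ → Submodule D (YR D (k + 2))) (s : Fin k →₀ ℕ) (e : ℕ) :
    xxSliceT U s e ≤ YD D 2 e := fun _ h => h.1

theorem xx_slice_YD_zv {n e : ℕ} {v : YR D n} (hv : v ∈ YD D n e) (i : Fin n) :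
    v * zv D n i ∈ YD D n (e + 1) := by
  intro m hm
  rw [w17_coeff_mul_zv] at hm
  by_cases hi : m i = 0
  · rw [if_pos hi] at hm
    exact absurd rfl hm
  · rw [if_neg hi] at hm
    have h1 := hv _ hm
    have h2 : m = (m - Finsupp.single i 1) + Finsupp.single i 1 := by
      rw [tsub_add_cancel_of_le]
      rw [Finsupp.single_le_iff]
      omega
    rw [h2, m4_deg_add, m4_deg_single, h1]

theorem xx_slice_T_mul {U : ℕ → Submodule D (YR D (k + 2))}
    (hmul : ∀ d, ∀ u ∈ U d, ∀ i, u * zv D (k + 2) i ∈ U (d + 1)) (s : Fin k →₀ ℕ) (e : ℕ)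
    {v : YR D 2} (hv : v ∈ xxSliceT U s e) (i : Fin 2) :
    v * zv D 2 i ∈ xxSliceT U s (e + 1) := by
  obtain ⟨h0, u, hu, h1, h2⟩ := hv
  have he : e + 1 + ∑ i, s i = e + ∑ i, s i + 1 := by omega
  rw [xx_slice_mem_T, he]
  refine ⟨xx_slice_YD_zv h0 i, ?_⟩
  fin_cases i
  · refine ⟨u * zv D (k + 2) 0, hmul _ u hu 0, fun m => ?_, fun m s' hs => ?_⟩
    · rw [xx_slice_coeff_zv0, h1]
      exact (w17_coeff_mul_zv v 0 m).symm
    · rw [xx_slice_coeff_zv0, h2 _ s' hs, ite_self]
  · refine ⟨u * zv D (k + 2) (Fin.succ 0), hmul _ u hu _, fun m => ?_, fun m s' hs => ?_⟩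
    · rw [xx_slice_coeff_zv1, h1]
      exact (w17_coeff_mul_zv v 1 m).symm
    · rw [xx_slice_coeff_zv1, h2 _ s' hs, ite_self]

theorem xx_slice_T_mono {U : ℕ → Submodule D (YR D (k + 2))}
    (hmul : ∀ d, ∀ u ∈ U d, ∀ i, u * zv D (k + 2) i ∈ U (d + 1)) (s : Fin k →₀ ℕ) (e : ℕ)
    (i : Fin k) : xxSliceT U s e ≤ xxSliceT U (s + Finsupp.single i 1) e := by
  rintro v ⟨h0, u, hu, h1, h2⟩
  have he : e + ∑ j, (s + Finsupp.single i 1 : Fin k →₀ ℕ) j = e + ∑ i, s i + 1 := by
    rw [m4_deg_add, m4_deg_single]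
    omega
  rw [xx_slice_mem_T, he]
  refine ⟨h0, u * zv D (k + 2) i.succ.succ, hmul _ u hu _, fun m => ?_, fun m s' hs => ?_⟩
  · rw [xx_slice_coeff_zvs, if_neg, add_tsub_cancel_right, h1]
    rw [Finsupp.add_apply, Finsupp.single_eq_same]
    omega
  · rw [xx_slice_coeff_zvs]
    by_cases hi : s' i = 0
    · rw [if_pos hi]
    · rw [if_neg hi]
      apply h2
      have h3 : s' = (s' - Finsupp.single i 1) + Finsupp.single i 1 := by
        rw [tsub_add_cancel_of_le]
        rw [Finsupp.single_le_iff]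
        omega
      rw [h3] at hs
      exact xx_slice_cl_add hs

theorem xx_slice_T_zero_le {U : ℕ → Submodule D (YR D (k + 2))}
    (hmul : ∀ d, ∀ u ∈ U d, ∀ i, u * zv D (k + 2) i ∈ U (d + 1)) (e : ℕ) (N : ℕ) :
    ∀ (s : Fin k →₀ ℕ), ∑ i, s i = N → xxSliceT U 0 e ≤ xxSliceT U s e := by
  induction N with
  | zero =>
    intro s hs
    have h0 : s = 0 := by
      ext i
      have := deg_le_sum s i
      rw [Finsupp.zero_apply]
      omega
    rw [h0]
  | succ N ih =>
    intro s hs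
    obtain ⟨i, hi⟩ : ∃ i, s i ≠ 0 := by
      by_contra hc
      push Not at hc
      rw [Finset.sum_eq_zero fun i _ => hc i] at hs
      omega
    have h3 : s = (s - Finsupp.single i 1) + Finsupp.single i 1 := by
      rw [tsub_add_cancel_of_le]
      rw [Finsupp.single_le_iff]
      omega
    rw [h3]
    refine le_trans (ih _ ?_) (xx_slice_T_mono hmul _ e i)
    rw [h3, m4_deg_add, m4_deg_single] at hs
    omega

theorem xx_slice_r2_coeff (F : YR D (k + 2)) (m : Fin 2 →₀ ℕ) :
    (r2 F).coeff m = F.coeff (xxSliceCc m 0) := rfl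

theorem xx_slice_r2_mem {U : ℕ → Submodule D (YR D (k + 2))} (hU : ∀ d, U d ≤ YD D (k + 2) d)
    {a : ℕ} {F : YR D (k + 2)} (hF : F ∈ U a) : r2 F ∈ xxSliceT U 0 a := by
  rw [xx_slice_mem_T]
  have h0 : ∑ i, (0 : Fin k →₀ ℕ) i = 0 := Finset.sum_eq_zero fun i _ => rfl
  rw [h0, add_zero]
  refine ⟨fun m hm => ?_, F, hF, fun m => (xx_slice_r2_coeff F m).symm,
    fun m s' hs => absurd hs (xx_slice_not_cl_zero _)⟩
  rw [xx_slice_r2_coeff] at hm
  have h1 := hU a hF _ hm
  rw [xx_slice_sum, h0, add_zero] at h1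
  exact h1

theorem xx_slice_low {U : ℕ → Submodule D (YR D (k + 2))} (hU : ∀ d, U d ≤ YD D (k + 2) d)
    {d : ℕ} {s : Fin k →₀ ℕ} (hs : ∑ i, s i ≤ d) :
    {m : Fin 2 →₀ ℕ | xxSliceCc m s ∈ w17low (U d)} =
      w17low (xxSliceT U s (d - ∑ i, s i)) := by
  have hd : d - ∑ i, s i + ∑ i, s i = d := Nat.sub_add_cancel hs
  ext m
  constructor
  · rintro ⟨u, hu, h1, h2⟩
    refine ⟨AddMonoidAlgebra.ofCoeff (u.coeff.comapDomain (fun m => xxSliceCc m s)
      (fun a _ b _ h => (xx_slice_cc_inj h).1)), ?_, h1, fun m' hm' => ?_⟩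
    · rw [xx_slice_mem_T, hd]
      refine ⟨fun m' hm' => ?_, u, hu, fun m => rfl, fun m' s' hs' => ?_⟩
      · have h3 := hU d hu _ (show u.coeff (xxSliceCc m' s) ≠ 0 from hm')
        rw [xx_slice_sum] at h3
        omega
      · exact h2 _ (xx_slice_cl_left m m' hs')
    · exact h2 _ (xx_slice_cl_right s hm')
  · rintro ⟨v, ⟨h0, u, hu, h1, h2⟩, h3, h4⟩
    rw [hd] at hu
    refine ⟨u, hu, ?_, fun f hf => ?_⟩
    · rw [h1]
      exact h3
    · obtain ⟨m', hm'⟩ := xx_slice_exists f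
      rw [← hm'] at hf ⊢
      rcases xx_slice_cl_cases hf with h5 | ⟨h5, h6⟩
      · exact h2 _ _ h5
      · rw [h5, h1]
        exact h4 _ h6

theorem xx_slice_finite_YD (n e : ℕ) : Module.Finite D (YD D n e) := by
  have := finite_monD (D := D) {m : Fin n →₀ ℕ | ∑ i, m i = e} (fun m hm => hm)
  exact this

theorem xx_slice_finrank_YD (e : ℕ) : finrank D (YD D 2 e) = e + 1 := by
  have h1 := finrank_monD (D := D) {m : Fin 2 →₀ ℕ | ∑ i, m i = e} (fun m hm => hm)
  have h2 : finrank D (YD D 2 e) = finrank D (monD D {m : Fin 2 →₀ ℕ | ∑ i, m i = e}) := rfl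
  rw [h2, h1]
  have h3 : {m : Fin 2 →₀ ℕ | ∑ i, m i = e} =
      (fun j : ℕ => (Finsupp.equivFunOnFinite.symm ![j, e - j] : Fin 2 →₀ ℕ)) ''
        ((Finset.range (e + 1) : Finset ℕ) : Set ℕ) := by
    ext m
    rw [Set.mem_ofPred_eq, Fin.sum_univ_two, Set.mem_image]
    constructor
    · intro h
      refine ⟨m 0, ?_, ?_⟩
      · rw [Finset.mem_coe, Finset.mem_range]
        omega
      · apply xx_slice_ext2
        · rfl
        · change e - m 0 = m 1
          omega
    · rintro ⟨j, hj, rfl⟩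
      rw [Finset.mem_coe, Finset.mem_range] at hj
      change j + (e - j) = e
      omega
  rw [h3, Set.ncard_image_of_injective, Set.ncard_coe_finset, Finset.card_range]
  intro i j hij
  exact DFunLike.congr_fun hij 0

theorem xx_slice_finrank_T {U : ℕ → Submodule D (YR D (k + 2))} (s : Fin k →₀ ℕ) (e : ℕ) :
    (w17low (xxSliceT U s e)).ncard = finrank D (xxSliceT U s e) := by
  rw [w17_low_eq (Nat.lt_succ_self e) (xx_slice_T_le U s e),
    ncard_inm (Nat.lt_succ_self e) (xx_slice_T_le U s e)]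

theorem xx_slice_fib {S : Set (Fin (k + 2) →₀ ℕ)} (hS : S.Finite) (A : Finset (Fin k →₀ ℕ))
    (hA : ∀ m s, xxSliceCc m s ∈ S → s ∈ A) :
    S.ncard = ∑ s ∈ A, {m : Fin 2 →₀ ℕ | xxSliceCc m s ∈ S}.ncard := by
  classical
  rw [Set.ncard_eq_toFinset_card S hS]
  rw [Finset.card_eq_sum_card_fiberwise (f := xxSliceTl) (t := A)]
  · refine Finset.sum_congr rfl fun s _ => ?_
    rw [← Set.ncard_coe_finset, ← Set.ncard_image_of_injective _
      (show Function.Injective (fun m : Fin 2 →₀ ℕ => xxSliceCc m s) from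
        fun a b h => (xx_slice_cc_inj h).1)]
    congr 1
    ext f
    rw [Finset.mem_coe, Finset.mem_filter, Set.Finite.mem_toFinset, Set.mem_image]
    constructor
    · rintro ⟨h1, rfl⟩
      obtain ⟨m, hm⟩ := xx_slice_exists f
      refine ⟨m, ?_, hm⟩
      rw [Set.mem_ofPred_eq, hm]
      exact h1
    · rintro ⟨m, hm, rfl⟩
      exact ⟨hm, xx_slice_tl_cc m s⟩
  · intro f hf
    rw [Finset.mem_coe, Set.Finite.mem_toFinset] at hf
    obtain ⟨m, hm⟩ := xx_slice_exists f
    rw [← hm] at hf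
    exact hA _ _ hf

/-- a form that right divides all forms of a degree is constant -/
theorem xx_slice_div {φ : YR D 2} {a N : ℕ} (ha : 1 ≤ a) (hφ : φ ∈ YD D 2 a)
    (h : ∀ w ∈ YD D 2 N, ∃ v : YR D 2, w = v * φ) : False := by
  classical
  have hsupp : ∀ (v : YR D 2) (m : Fin 2 →₀ ℕ), (v * φ).coeff m ≠ 0 →
      ∃ x y, v.coeff x ≠ 0 ∧ x + y = m ∧ ∑ i, y i = a := by
    intro v m hm
    have h1 : m ∈ (v * φ).coeff.support := Finsupp.mem_support_iff.2 hm
    have h2 := AddMonoidAlgebra.support_coeff_mul_subset v φ h1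
    rw [Finset.mem_add] at h2
    obtain ⟨x, hx, y, hy, rfl⟩ := h2
    exact ⟨x, y, Finsupp.mem_support_iff.1 hx, rfl, hφ y (Finsupp.mem_support_iff.1 hy)⟩
  rcases lt_or_ge N a with hN | hN
  · obtain ⟨v, hv⟩ := h (AddMonoidAlgebra.single (Finsupp.single 0 N) 1) (by
      intro m hm
      rw [AddMonoidAlgebra.coeff_single, Finsupp.single_apply] at hm
      by_cases h1 : Finsupp.single 0 N = m
      · rw [← h1, Fin.sum_univ_two, Finsupp.single_eq_same,
          Finsupp.single_eq_of_ne (by decide), add_zero]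
      · rw [if_neg h1] at hm
        exact absurd rfl hm)
    obtain ⟨x, y, -, h2, h3⟩ := hsupp v (Finsupp.single 0 N) (by
      rw [← hv, AddMonoidAlgebra.coeff_single, Finsupp.single_eq_same]
      exact one_ne_zero)
    have h4 : ∑ i, (Finsupp.single 0 N : Fin 2 →₀ ℕ) i = ∑ i, x i + ∑ i, y i := by
      rw [← h2, m4_deg_add]
    rw [Fin.sum_univ_two, Finsupp.single_eq_same, Finsupp.single_eq_of_ne (by decide)] at h4
    omega
  · obtain ⟨b, rfl⟩ := Nat.exists_eq_add_of_le hN
    let ρ : YD D 2 b →ₗ[D] YR D 2 :=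
      { toFun := fun v => (v : YR D 2) * φ
        map_add' := fun x y => by rw [Submodule.coe_add, add_mul]
        map_smul' := fun c x => by
          rw [Submodule.coe_smul, smul_mul_assoc]
          rfl }
    have h1 : YD D 2 (a + b) ≤ LinearMap.range ρ := by
      intro w hw
      obtain ⟨v, hv⟩ := h w hw
      have hv0 : (AddMonoidAlgebra.ofCoeff (v.coeff.filter fun m => ∑ i, m i = b) : YR D 2) ∈
          YD D 2 b := by
        intro m hm
        by_contra hc
        apply hm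
        exact Finsupp.filter_apply_neg _ _ hc
      refine ⟨⟨_, hv0⟩, ?_⟩
      change AddMonoidAlgebra.ofCoeff (v.coeff.filter fun m => ∑ i, m i = b) * φ = w
      have h2 : v = AddMonoidAlgebra.ofCoeff (v.coeff.filter fun m => ∑ i, m i = b) +
          AddMonoidAlgebra.ofCoeff (v.coeff.filter fun m => ¬ ∑ i, m i = b) := by
        apply AddMonoidAlgebra.coeff_injective
        exact (Finsupp.filter_add_filter_not v.coeff fun m => ∑ i, m i = b).symm
      apply deg_yr_ext
      intro m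
      by_cases hm : ∑ i, m i = a + b
      · have h3 : (AddMonoidAlgebra.ofCoeff (v.coeff.filter fun m => ¬ ∑ i, m i = b) *
            φ : YR D 2).coeff m = 0 := by
          by_contra hc
          obtain ⟨x, y, h4, h5, h6⟩ := hsupp _ _ hc
          have h7 : ∑ i, x i = b := by
            rw [← h5, m4_deg_add] at hm
            omega
          apply h4
          exact Finsupp.filter_apply_neg _ _ (by simpa using h7)
        rw [hv]
        conv_rhs => rw [h2]
        rw [add_mul, AddMonoidAlgebra.coeff_add, Finsupp.add_apply, h3, add_zero]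
      · have h3 : w.coeff m = 0 := by
          by_contra hc
          exact hm (hw m hc)
        rw [h3]
        by_contra hc
        obtain ⟨x, y, h4, h5, h6⟩ := hsupp _ _ hc
        have h7 := hv0 x h4
        apply hm
        rw [← h5, m4_deg_add]
        omega
    have h2 := xx_slice_finite_YD (D := D) 2 b
    have h3 := Submodule.finrank_mono h1
    have h4 := LinearMap.finrank_range_le ρ
    rw [xx_slice_finrank_YD] at h3 h4
    omega

end T

theorem slice {D : Type*} [DivisionRing D] {k : ℕ} (U : ℕ → Submodule D (YR D (k + 2)))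
    (hU : ∀ d, U d ≤ YD D (k + 2) d)
    (hmul : ∀ d, ∀ u ∈ U d, ∀ i, u * zv D (k + 2) i ∈ U (d + 1)) (a1 a2 p : ℕ) (ha1 : 1 ≤ a1)
    (h12 : a1 ≤ a2)
    (hp : ∀ i : Fin k, AddMonoidAlgebra.single (Finsupp.single i.succ.succ p) (1 : D) ∈ U p)
    (F1 F2 : YR D (k + 2)) (h1 : F1 ∈ U a1) (h2 : F2 ∈ U a2) (N : ℕ)
    (hcol : ∀ w ∈ YD D 2 N, ∃ u v : YR D 2, w = u * r2 F1 + v * r2 F2) :
    ∃ M : Set (Fin (k + 2) →₀ ℕ), (∀ m ∈ M, ∀ i, m + Finsupp.single i 1 ∈ M) ∧
      Finsupp.single 0 a1 ∈ M ∧ Finsupp.single 1 a2 ∈ M ∧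
      (∀ i : Fin k, Finsupp.single i.succ.succ p ∈ M) ∧
      ∀ d, {m | m ∈ M ∧ ∑ i, m i = d}.ncard = finrank D (U d) := by
  have hfT : ∀ s e, Module.Finite D (xxSliceT U s e) := by
    intro s e
    have := xx_slice_finite_YD (D := D) 2 e
    exact Submodule.finiteDimensional_of_le (xx_slice_T_le U s e)
  have hle : ∀ s e, finrank D (xxSliceT U s e) ≤ e + 1 := by
    intro s e
    have := xx_slice_finite_YD (D := D) 2 e
    rw [← xx_slice_finrank_YD (D := D) e]
    exact Submodule.finrank_mono (xx_slice_T_le U s e)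
  have hF1 : ∀ s, r2 F1 ∈ xxSliceT U s a1 := fun s =>
    xx_slice_T_zero_le hmul a1 _ s rfl (xx_slice_r2_mem hU h1)
  have hF2 : ∀ s, r2 F2 ∈ xxSliceT U s a2 := fun s =>
    xx_slice_T_zero_le hmul a2 _ s rfl (xx_slice_r2_mem hU h2)
  have hpos : ∀ s e (v : YR D 2), v ∈ xxSliceT U s e → v ≠ 0 →
      1 ≤ finrank D (xxSliceT U s e) := by
    intro s e v hv h0
    have := hfT s e
    have h3 : xxSliceT U s e ≠ ⊥ := by
      intro h4
      rw [h4, Submodule.mem_bot] at hv
      exact h0 hv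
    exact Nat.one_le_iff_ne_zero.2 fun h4 => h3 (Submodule.finrank_eq_zero.1 h4)
  have hF10 : r2 F1 ≠ 0 := by
    intro h0
    refine xx_slice_div (D := D) (φ := r2 F2) (a := a2) (N := N) (by omega)
      ((xx_slice_T_le U 0 a2) (hF2 0)) fun w hw => ?_
    obtain ⟨u, v, hv⟩ := hcol w hw
    rw [h0, mul_zero, zero_add] at hv
    exact ⟨v, hv⟩
  have hcc : ∀ i : Fin k, xxSliceCc (0 : Fin 2 →₀ ℕ) (Finsupp.single i p) =
      (Finsupp.single i.succ.succ p : Fin (k + 2) →₀ ℕ) := by
    intro i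
    apply xx_slice_ext
    · rw [xx_slice_cc_zero, Finsupp.single_eq_of_ne (by exact (Fin.succ_ne_zero _).symm)]
      rfl
    · rw [xx_slice_cc_one, Finsupp.single_eq_of_ne
          (by exact fun h => Fin.succ_ne_zero _ (Fin.succ_injective _ h).symm)]
      rfl
    · intro j
      rw [xx_slice_cc_succ]
      by_cases hij : j = i
      · rw [hij, Finsupp.single_eq_same, Finsupp.single_eq_same]
      · rw [Finsupp.single_eq_of_ne hij, Finsupp.single_eq_of_ne
          (by exact fun h => hij (Fin.succ_injective _ (Fin.succ_injective _ h)))]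
  obtain ⟨M, hM1, hM2, hM3, hM4, hM5⟩ := comb (fun s e => finrank D (xxSliceT U s e)) a1 a2 p
    ha1 h12 hle
    (fun s e i => by
      have := hfT (s + Finsupp.single i 1) e
      exact Submodule.finrank_mono (xx_slice_T_mono hmul s e i))
    (fun s e h0 => one_var_growth (T := xxSliceT U s) (xx_slice_T_le U s)
      (fun e u hu i => xx_slice_T_mul hmul s e hu i) e h0)
    (fun s e h0 => two_var (T := xxSliceT U s) (xx_slice_T_le U s)
      (fun e u hu i => xx_slice_T_mul hmul s e hu i) h12 (hF1 s) (hF2 s) hcol e h0)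
    (hpos 0 a1 _ (hF1 0) hF10)
    (fun i => by
      apply le_antisymm
      · have := hle (Finsupp.single i p) 0
        rwa [zero_add] at this
      · have h3 : ∑ j, (Finsupp.single i p : Fin k →₀ ℕ) j = p := by
          classical
          simp only [Finsupp.single_apply]
          simp
        refine hpos _ _ (AddMonoidAlgebra.single 0 1) ?_ ?_
        · rw [xx_slice_mem_T, h3, zero_add]
          refine ⟨fun m hm => ?_, _, hp i, fun m => ?_, fun m s' hs => ?_⟩
          · rw [AddMonoidAlgebra.coeff_single, Finsupp.single_apply] at hm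
            by_cases h4 : (0 : Fin 2 →₀ ℕ) = m
            · rw [← h4]
              exact Finset.sum_eq_zero fun i _ => rfl
            · rw [if_neg h4] at hm
              exact absurd rfl hm
          · rw [AddMonoidAlgebra.coeff_single, AddMonoidAlgebra.coeff_single,
              Finsupp.single_apply, Finsupp.single_apply]
            refine if_congr ⟨fun h4 => ?_, fun h4 => ?_⟩ rfl rfl
            · rw [← hcc i] at h4
              exact (xx_slice_cc_inj h4).1
            · rw [← h4, hcc]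
          · rw [AddMonoidAlgebra.coeff_single, Finsupp.single_apply, if_neg]
            intro h4
            rw [← hcc i] at h4
            rw [← (xx_slice_cc_inj h4).2] at hs
            exact xx_slice_not_cl_self _ hs
        · intro h4
          have h5 : (AddMonoidAlgebra.single 0 1 : YR D 2).coeff 0 = 0 := by
            rw [h4, AddMonoidAlgebra.coeff_zero, Finsupp.zero_apply]
          rw [AddMonoidAlgebra.coeff_single, Finsupp.single_eq_same] at h5
          exact one_ne_zero h5)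
  refine ⟨M, hM1, hM2, hM3, hM4, fun d => ?_⟩
  have hfin : {s : Fin k →₀ ℕ | ∑ i, s i ≤ d}.Finite :=
    (Set.Finite.biUnion (Set.finite_Iic d) fun e _ => deg_finite k e).subset fun s hs =>
      Set.mem_biUnion (Set.mem_Iic.2 hs) rfl
  have hA : ∀ s : Fin k →₀ ℕ, s ∈ hfin.toFinset ↔ ∑ i, s i ≤ d := fun s =>
    Set.Finite.mem_toFinset hfin
  have hlow : ∀ f ∈ w17low (U d), ∑ i, f i = d := by
    rintro f ⟨u, hu, h3, -⟩
    exact hU d hu f h3
  rw [← ncard_inm (Nat.lt_succ_self d) (hU d), ← w17_low_eq (Nat.lt_succ_self d) (hU d),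
    xx_slice_fib ((deg_finite (k + 2) d).subset hlow) hfin.toFinset,
    xx_slice_fib ((deg_finite (k + 2) d).subset fun f hf => hf.2) hfin.toFinset]
  · refine Finset.sum_congr rfl fun s hs => ?_
    rw [hA] at hs
    rw [xx_slice_low hU hs, xx_slice_finrank_T, ← hM5 s (d - ∑ i, s i)]
    congr 1
    ext m
    change (xxSliceCc m s ∈ M ∧ ∑ i, xxSliceCc m s i = d) ↔
      (m 0 + m 1 = d - ∑ i, s i ∧ xxSliceCc m s ∈ M)
    rw [xx_slice_sum, Fin.sum_univ_two]
    constructor
    · rintro ⟨h3, h4⟩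
      exact ⟨by omega, h3⟩
    · rintro ⟨h3, h4⟩
      exact ⟨h4, by omega⟩
  · intro m s hms
    have h3 := hms.2
    rw [xx_slice_sum] at h3
    rw [hA]
    omega
  · intro m s hms
    have h3 := hlow _ hms
    rw [xx_slice_sum] at h3
    rw [hA]
    omega

end Vale.Agent.P200.X
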