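import Vale.Agent.P200.W.Point
import Vale.Agent.P200.W.Degen
import Vale.Agent.P200.X.Slice
import Vale.Agent.P200.X.Mult

/-!
**Two arbitrary degrees.**  `f_0, ..., f_(k+1)` m-primary of degrees `a i ≤ p` (`p` prime, `p! ≠ 0`).

1. `exists_mult` (file `X/Mult.lean`): there are products of linear forms (powers `l_i ^ (p - a i)`) `h_i` with
   `g_i = f_i h_i` m-primary (all of degree `p`).
2. `exists_point_gen` for `g`: `L, D, E, c`.
3. `U d = (VD D (piece I d)).comap (theta E)`.  `hU` : `map_theta`/`finrank_comap_theta`; `hmul`: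
   `theta_mul_zv` and `w17_VD_mul_lin`; `hp`: `theta (single (single i p) 1) = lin (E i)^p
   = ∑ c_ij g_j ∈ VD (piece I p)`.
4. `F1, F2` with `theta E F1 = bD D (f 0)`, `theta E F2 = bD D (f 1)`.
5. `hcol`: `c' = (c i j)_{i, j ≥ 2}` is invertible over `L` (all minors are nonzero), so for `j ≥ 2`
   `bD g_j ∈ ∑_{i ≥ 2} L lin (E i)^p + L bD g_0 + L bD g_1`; hence the left ideal `G` of `YR D n`
   generated by the `lin (E i)`, `i ≥ 2`, and `bD f_0, bD f_1` contains all `bD g_j`, so it contains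
   `YD D n N` for some `N`.  Since `bD f` is central, `theta V * theta F = theta (V * F)` if
   `theta F = bD f` (`y4_theta_mul_central`); so `W = C_0 F1 + C_1 F2 + ∑_{i ≥ 2} C_i z_i` for every `W ∈ YD D n N`.
   Now apply the ring homomorphism `r2`.
6. `slice` gives `M`; compare dimensions.
-/

namespace Vale.Agent.P200.X

open MvPolynomial Module
open Vale.Agent.P200.B Vale.Agent.P200.G Vale.Agent.P200.L Vale.Agent.P200.M Vale.Agent.P200.V

universe u

section theta

variable {D : Type*} [DivisionRing D] {n : ℕ}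

theorem y4_single_comm (m : Fin n →₀ ℕ) (F : YR D n) :
    (AddMonoidAlgebra.single m 1 : YR D n) * F = F * AddMonoidAlgebra.single m 1 := by
  induction F using AddMonoidAlgebra.induction_linear with
  | zero => rw [zero_mul, mul_zero]
  | add a b ha hb => rw [mul_add, add_mul, ha, hb]
  | single m' c =>
    rw [AddMonoidAlgebra.single_mul_single, AddMonoidAlgebra.single_mul_single, one_mul, mul_one,
      add_comm]

theorem y4_theta_mul_single (E : Fin n → Fin n → D)
    (hrow : ∀ i j, i ≠ j → ∀ k l, E i k * E j l = E j l * E i k) (u : YR D n) :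
    ∀ (N : ℕ) (m : Fin n →₀ ℕ), ∑ i, m i = N →
      theta E (u * AddMonoidAlgebra.single m 1) = theta E u * xim E m := by
  intro N
  induction N with
  | zero =>
    intro m hm
    have h0 : m = 0 := by
      ext i
      exact (Finset.sum_eq_zero_iff.1 hm) i (Finset.mem_univ i)
    subst h0
    rw [m4_xim_zero, mul_one, ← AddMonoidAlgebra.one_def, mul_one]
  | succ N ih =>
    intro m hm
    obtain ⟨k, hk⟩ : ∃ k, m k ≠ 0 := by
      by_contra hcon
      push Not at hcon
      rw [Finset.sum_eq_zero fun i _ => hcon i] at hm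
      omega
    obtain ⟨m', hm'⟩ : ∃ m' : Fin n →₀ ℕ, m = m' + Finsupp.single k 1 := by
      refine ⟨m - Finsupp.single k 1, ?_⟩
      rw [tsub_add_cancel_of_le]
      rw [Finsupp.single_le_iff]
      omega
    have hd : ∑ i, m' i = N := by
      rw [hm', m4_deg_add, m4_deg_single] at hm
      omega
    have h1 : (AddMonoidAlgebra.single m 1 : YR D n) =
        AddMonoidAlgebra.single m' 1 * zv D n k := by
      unfold zv
      rw [AddMonoidAlgebra.single_mul_single, mul_one, hm']
    rw [h1, ← mul_assoc, theta_mul_zv E hrow, ih m' hd, hm', xim_add E hrow, mul_assoc]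

theorem y4_theta_mul_central (E : Fin n → Fin n → D)
    (hrow : ∀ i j, i ≠ j → ∀ k l, E i k * E j l = E j l * E i k) (V F g : YR D n)
    (hF : theta E F = g) (hg : ∀ w, w * g = g * w) : theta E V * g = theta E (V * F) := by
  induction V using AddMonoidAlgebra.induction_linear with
  | zero => rw [map_zero, zero_mul, zero_mul, map_zero]
  | add a b ha hb => rw [map_add, add_mul, ha, hb, add_mul, map_add]
  | single m c =>
    have h1 : (AddMonoidAlgebra.single m c : YR D n) * F =
        c • (F * AddMonoidAlgebra.single m 1) := by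
      have h2 : (AddMonoidAlgebra.single m c : YR D n) = c • AddMonoidAlgebra.single m 1 := by
        rw [AddMonoidAlgebra.smul_single', mul_one]
      rw [h2, smul_mul_assoc, y4_single_comm]
    rw [h1, map_smul, y4_theta_mul_single E hrow F _ m rfl, theta_single, smul_mul_assoc, hg, hF]

theorem y4_theta_surj (E : Fin n → Fin n → D)
    (hrow : ∀ i j, i ≠ j → ∀ k l, E i k * E j l = E j l * E i k)
    (hind : LinearIndependent D E) (x : YR D n) : ∃ y, theta E y = x := by
  have h : x ∈ LinearMap.range (theta E) := by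
    rw [m4_sum_single x]
    refine Submodule.sum_mem _ fun m _ => ?_
    obtain ⟨y, _, hy⟩ := m4_single_range E hrow hind _ m (x.coeff m) rfl
    exact ⟨y, hy⟩
  exact h

theorem y4_bD_comm {K : Type*} [Field K] [Algebra K D] (f : MvPolynomial (Fin n) K)
    (w : YR D n) : w * bD D f = bD D f * w := by
  induction w using AddMonoidAlgebra.induction_linear with
  | zero => rw [zero_mul, mul_zero]
  | add a b ha hb => rw [mul_add, add_mul, ha, hb]
  | single m c =>
    induction f using MvPolynomial.induction_on' with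
    | add p q hp hq => rw [map_add, mul_add, add_mul, hp, hq]
    | monomial m' a =>
      rw [bD_monomial, AddMonoidAlgebra.single_mul_single, AddMonoidAlgebra.single_mul_single,
        add_comm, Algebra.commutes]

end theta

section restr

variable {D : Type*} [DivisionRing D] {k : ℕ}

/-- the exponents without the last variables -/
noncomputable def y4_io (k : ℕ) (m : Fin 2 →₀ ℕ) : Fin (k + 2) →₀ ℕ :=
  Finsupp.cons (m 0) (Finsupp.cons (m 1) 0)

theorem y4_io_zero (m : Fin 2 →₀ ℕ) : y4_io k m 0 = m 0 := Finsupp.cons_zero _ _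

theorem y4_io_one (m : Fin 2 →₀ ℕ) : y4_io k m 1 = m 1 := by
  change Finsupp.cons (m 0) (Finsupp.cons (m 1) (0 : Fin k →₀ ℕ)) (Fin.succ 0) = _
  rw [Finsupp.cons_succ, Finsupp.cons_zero]

theorem y4_io_ss (m : Fin 2 →₀ ℕ) (i : Fin k) : y4_io k m i.succ.succ = 0 := by
  unfold y4_io
  rw [Finsupp.cons_succ, Finsupp.cons_succ, Finsupp.zero_apply]

theorem y4_ext {m m' : Fin (k + 2) →₀ ℕ} (h0 : m 0 = m' 0) (h1 : m 1 = m' 1)
    (h2 : ∀ i : Fin k, m i.succ.succ = m' i.succ.succ) : m = m' := by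
  ext i
  refine Fin.cases h0 (fun i => ?_) i
  refine Fin.cases h1 (fun i => h2 i) i

theorem y4_io_inj {m m' : Fin 2 →₀ ℕ} (h : y4_io k m = y4_io k m') : m = m' := by
  have h0 := DFunLike.congr_fun h 0
  have h1 := DFunLike.congr_fun h 1
  rw [y4_io_zero, y4_io_zero] at h0
  rw [y4_io_one, y4_io_one] at h1
  ext i
  fin_cases i
  · exact h0
  · exact h1

theorem y4_io_add (m m' : Fin 2 →₀ ℕ) : y4_io k (m + m') = y4_io k m + y4_io k m' := by
  refine y4_ext ?_ ?_ fun i => ?_
  · rw [Finsupp.add_apply, y4_io_zero, y4_io_zero, y4_io_zero, Finsupp.add_apply]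
  · rw [Finsupp.add_apply, y4_io_one, y4_io_one, y4_io_one, Finsupp.add_apply]
  · rw [Finsupp.add_apply, y4_io_ss, y4_io_ss, y4_io_ss]

theorem y4_io_exists {m : Fin (k + 2) →₀ ℕ} (h : ∀ i : Fin k, m i.succ.succ = 0) :
    ∃ m', m = y4_io k m' := by
  refine ⟨Finsupp.equivFunOnFinite.symm ![m 0, m 1], y4_ext ?_ ?_ fun i => ?_⟩
  · rw [y4_io_zero]
    rfl
  · rw [y4_io_one]
    rfl
  · rw [y4_io_ss, h]

theorem y4_io_sum (m : Fin 2 →₀ ℕ) : ∑ i, y4_io k m i = ∑ i, m i := by
  rw [Fin.sum_univ_succ, Fin.sum_univ_succ, Fin.sum_univ_two]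
  have h1 : ∑ i : Fin k, y4_io k m i.succ.succ = 0 :=
    Finset.sum_eq_zero fun i _ => y4_io_ss m i
  have h2 : y4_io k m (Fin.succ 0) = m 1 := y4_io_one m
  rw [h1, y4_io_zero, h2, add_zero]

theorem y4_r2_coeff (F : YR D (k + 2)) (m : Fin 2 →₀ ℕ) :
    (r2 F).coeff m = F.coeff (y4_io k m) := rfl

theorem y4_yr_ext {n : ℕ} {u v : YR D n} (h : ∀ m, u.coeff m = v.coeff m) : u = v :=
  AddMonoidAlgebra.ext (Finsupp.ext h)

theorem y4_r2_zero : r2 (0 : YR D (k + 2)) = 0 := by
  refine y4_yr_ext fun m => ?_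
  rw [y4_r2_coeff]
  rfl

theorem y4_r2_add (u v : YR D (k + 2)) : r2 (u + v) = r2 u + r2 v := by
  refine y4_yr_ext fun m => ?_
  rw [y4_r2_coeff, AddMonoidAlgebra.coeff_add, Finsupp.add_apply, AddMonoidAlgebra.coeff_add,
    Finsupp.add_apply, y4_r2_coeff, y4_r2_coeff]

theorem y4_r2_sum {ι : Type*} (s : Finset ι) (u : ι → YR D (k + 2)) :
    r2 (∑ i ∈ s, u i) = ∑ i ∈ s, r2 (u i) := by
  classical
  induction s using Finset.induction_on with
  | empty => rw [Finset.sum_empty, Finset.sum_empty, y4_r2_zero]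
  | insert a s ha ih => rw [Finset.sum_insert ha, Finset.sum_insert ha, y4_r2_add, ih]

theorem y4_r2_single (m : Fin 2 →₀ ℕ) (c : D) :
    r2 (AddMonoidAlgebra.single (y4_io k m) c) = AddMonoidAlgebra.single m c := by
  classical
  refine y4_yr_ext fun m' => ?_
  rw [y4_r2_coeff, AddMonoidAlgebra.coeff_single, AddMonoidAlgebra.coeff_single,
    Finsupp.single_apply, Finsupp.single_apply]
  by_cases h : m = m'
  · rw [if_pos h, if_pos (by rw [h])]
  · rw [if_neg h, if_neg fun h' => h (y4_io_inj h')]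

theorem y4_r2_single_ne {m : Fin (k + 2) →₀ ℕ} {i : Fin k} (h : m i.succ.succ ≠ 0) (c : D) :
    r2 (AddMonoidAlgebra.single m c) = 0 := by
  classical
  refine y4_yr_ext fun m' => ?_
  rw [y4_r2_coeff, AddMonoidAlgebra.coeff_single, Finsupp.single_apply, if_neg]
  · rfl
  · intro h'
    rw [h', y4_io_ss] at h
    exact h rfl

theorem y4_r2_mul (u v : YR D (k + 2)) : r2 (u * v) = r2 u * r2 v := by
  induction u using AddMonoidAlgebra.induction_linear with
  | zero => rw [zero_mul, y4_r2_zero, zero_mul]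
  | add a b ha hb => rw [add_mul, y4_r2_add, ha, hb, y4_r2_add, add_mul]
  | single m c =>
    induction v using AddMonoidAlgebra.induction_linear with
    | zero => rw [mul_zero, y4_r2_zero, mul_zero]
    | add a b ha hb => rw [mul_add, y4_r2_add, ha, hb, y4_r2_add, mul_add]
    | single m' c' =>
      rw [AddMonoidAlgebra.single_mul_single]
      by_cases h : ∀ i : Fin k, m i.succ.succ = 0
      · by_cases h' : ∀ i : Fin k, m' i.succ.succ = 0
        · obtain ⟨m1, rfl⟩ := y4_io_exists h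
          obtain ⟨m2, rfl⟩ := y4_io_exists h'
          rw [← y4_io_add, y4_r2_single, y4_r2_single, y4_r2_single,
            AddMonoidAlgebra.single_mul_single]
        · push Not at h'
          obtain ⟨i, hi⟩ := h'
          rw [y4_r2_single_ne hi, mul_zero]
          refine y4_r2_single_ne (i := i) ?_ _
          rw [Finsupp.add_apply]
          omega
      · push Not at h
        obtain ⟨i, hi⟩ := h
        rw [y4_r2_single_ne hi, zero_mul]
        refine y4_r2_single_ne (i := i) ?_ _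
        rw [Finsupp.add_apply]
        omega

theorem y4_r2_zv (i : Fin k) : r2 (zv D (k + 2) i.succ.succ) = 0 := by
  unfold zv
  refine y4_r2_single_ne (i := i) ?_ _
  rw [Finsupp.single_eq_same]
  exact one_ne_zero

theorem y4_lift {N : ℕ} {w : YR D 2} (hw : w ∈ YD D 2 N) :
    ∃ W ∈ YD D (k + 2) N, r2 W = w := by
  refine ⟨∑ m ∈ w.coeff.support, AddMonoidAlgebra.single (y4_io k m) (w.coeff m), ?_, ?_⟩
  · refine Submodule.sum_mem _ fun m hm => m4_single_mem ?_ _
    rw [y4_io_sum]
    exact hw m (Finsupp.mem_support_iff.1 hm)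
  · rw [y4_r2_sum]
    conv_rhs => rw [m4_sum_single w]
    exact Finset.sum_congr rfl fun m _ => y4_r2_single m _

end restr

section main

variable {K : Type*} [Field K] {D : Type*} [DivisionRing D] [Algebra K D] {n : ℕ}

theorem y4_mem_left {N : ℕ} (g : Fin n → MvPolynomial (Fin n) K)
    (hN : ∀ q : MvPolynomial (Fin n) K, q.IsHomogeneous N → q ∈ Ideal.span (Set.range g))
    (G : Submodule (YR D n) (YR D n)) (hG : ∀ j, bD D (g j) ∈ G) {w : YR D n}
    (hw : w ∈ YD D n N) : w ∈ G := by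
  rw [m4_sum_single w]
  refine Submodule.sum_mem _ fun m hm => ?_
  have hdeg := hw m (Finsupp.mem_support_iff.1 hm)
  have h1 : (monomial m (1 : K)).IsHomogeneous N := by
    refine isHomogeneous_monomial _ ?_
    rw [← hdeg]
    exact Finsupp.degree_eq_sum m
  have h2 := hN _ h1
  rw [Ideal.mem_span_range_iff_exists_fun] at h2
  obtain ⟨q, hq⟩ := h2
  have h3 : (AddMonoidAlgebra.single m (w.coeff m) : YR D n) =
      w.coeff m • bD D (monomial m (1 : K)) := by
    rw [bD_monomial, map_one, AddMonoidAlgebra.smul_single', mul_one]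
  rw [h3, ← hq, map_sum]
  refine G.smul_of_tower_mem _ (Submodule.sum_mem _ fun j _ => ?_)
  rw [map_mul]
  exact G.smul_mem (bD D (q j)) (hG j)

end main

section left

variable {K : Type*} [Field K] {D : Type*} [DivisionRing D] [Algebra K D] {k : ℕ}
  {L : Type*} [Field L] [Algebra L D]

/-- the generators of the left ideal -/
noncomputable def y4_gen (f : Fin (k + 2) → MvPolynomial (Fin (k + 2)) K)
    (E : Fin (k + 2) → Fin (k + 2) → D) : Fin (k + 2) → YR D (k + 2) :=
  Fin.cons (bD D (f 0)) (Fin.cons (bD D (f 1)) fun i : Fin k => M.lin (E i.succ.succ))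

theorem y4_gen_mem (p : ℕ) (hp : p ≠ 0) (f h : Fin (k + 2) → MvPolynomial (Fin (k + 2)) K)
    (E : Fin (k + 2) → Fin (k + 2) → D) (c : Matrix (Fin (k + 2)) (Fin (k + 2)) L)
    (hc : (c.submatrix (fun i : Fin k => i.succ.succ) (fun i : Fin k => i.succ.succ)).det ≠ 0)
    (hE : ∀ i, (M.lin (E i) ^ p : YR D (k + 2)) =
      ∑ j, algebraMap L D (c i j) • bD D (f j * h j)) (j : Fin (k + 2)) :
    bD D (f j * h j) ∈ Submodule.span (YR D (k + 2)) (Set.range (y4_gen f E)) := by
  classical
  set G := Submodule.span (YR D (k + 2)) (Set.range (y4_gen f E)) with hGdef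
  have hgen : ∀ i, y4_gen f E i ∈ G := fun i => Submodule.subset_span ⟨i, rfl⟩
  have h0 : bD D (f 0 * h 0) ∈ G := by
    rw [mul_comm, map_mul]
    exact G.smul_mem (bD D (h 0)) (hgen 0)
  have h1 : bD D (f 1 * h 1) ∈ G := by
    rw [mul_comm, map_mul]
    exact G.smul_mem (bD D (h 1)) (hgen 1)
  have hlin : ∀ i : Fin k, (M.lin (E i.succ.succ) ^ p : YR D (k + 2)) ∈ G := by
    intro i
    obtain ⟨p', rfl⟩ := Nat.exists_eq_succ_of_ne_zero hp
    rw [Nat.succ_eq_add_one, pow_succ]
    exact G.smul_mem (M.lin (E i.succ.succ) ^ p') (hgen i.succ.succ)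
  refine Fin.cases h0 (fun j => ?_) j
  refine Fin.cases h1 (fun l => ?_) j
  set c' := c.submatrix (fun i : Fin k => i.succ.succ) (fun i : Fin k => i.succ.succ) with hc'
  have hA : c'⁻¹ * c' = 1 := Matrix.nonsing_inv_mul c' (isUnit_iff_ne_zero.2 hc)
  set A := c'⁻¹ with hAdef
  have key : ∑ i : Fin k, algebraMap L D (A l i) • (M.lin (E i.succ.succ) ^ p : YR D (k + 2)) =
      algebraMap L D (∑ i, A l i * c i.succ.succ 0) • bD D (f 0 * h 0) +
      (algebraMap L D (∑ i, A l i * c i.succ.succ 1) • bD D (f 1 * h 1) +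
        bD D (f l.succ.succ * h l.succ.succ)) := by
    have e1 : ∀ i : Fin k, algebraMap L D (A l i) • (M.lin (E i.succ.succ) ^ p : YR D (k + 2)) =
        ∑ j, algebraMap L D (A l i * c i.succ.succ j) • bD D (f j * h j) := by
      intro i
      rw [hE, Finset.smul_sum]
      refine Finset.sum_congr rfl fun j _ => ?_
      rw [smul_smul, (algebraMap L D).map_mul]
    rw [Finset.sum_congr rfl fun i _ => e1 i, Finset.sum_comm]
    have e2 : ∀ j, ∑ i : Fin k, algebraMap L D (A l i * c i.succ.succ j) • bD D (f j * h j) =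
        algebraMap L D (∑ i, A l i * c i.succ.succ j) • bD D (f j * h j) := by
      intro j
      rw [map_sum, Finset.sum_smul]
    rw [Finset.sum_congr rfl fun j _ => e2 j, Fin.sum_univ_succ, Fin.sum_univ_succ]
    refine congrArg₂ _ rfl (congrArg₂ _ rfl ?_)
    have e3 : ∀ l' : Fin k, ∑ i, A l i * c i.succ.succ l'.succ.succ = if l = l' then 1 else 0 := by
      intro l'
      have h2 := congrFun (congrFun hA l) l'
      rw [Matrix.mul_apply, Matrix.one_apply] at h2
      exact h2
    rw [Finset.sum_eq_single l]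
    · rw [e3, if_pos rfl, map_one, one_smul]
    · intro l' _ hl'
      rw [e3, if_neg (Ne.symm hl'), map_zero, zero_smul]
    · intro h3
      exact absurd (Finset.mem_univ l) h3
  have h2 : bD D (f l.succ.succ * h l.succ.succ) =
      ∑ i : Fin k, algebraMap L D (A l i) • (M.lin (E i.succ.succ) ^ p : YR D (k + 2)) -
      algebraMap L D (∑ i, A l i * c i.succ.succ 0) • bD D (f 0 * h 0) -
      algebraMap L D (∑ i, A l i * c i.succ.succ 1) • bD D (f 1 * h 1) := by
    rw [key]
    abel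
  rw [h2]
  refine Submodule.sub_mem _ (Submodule.sub_mem _ ?_ ?_) ?_
  · exact Submodule.sum_mem _ fun i _ => G.smul_of_tower_mem _ (hlin i)
  · exact G.smul_of_tower_mem _ h0
  · exact G.smul_of_tower_mem _ h1

theorem y4_col (E : Fin (k + 2) → Fin (k + 2) → D)
    (hrow : ∀ i j, i ≠ j → ∀ k l, E i k * E j l = E j l * E i k)
    (hind : LinearIndependent D E) (f : Fin (k + 2) → MvPolynomial (Fin (k + 2)) K)
    {N : ℕ} (hG : ∀ w ∈ YD D (k + 2) N,
      w ∈ Submodule.span (YR D (k + 2)) (Set.range (y4_gen f E)))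
    {F1 F2 : YR D (k + 2)} (hF1 : theta E F1 = bD D (f 0)) (hF2 : theta E F2 = bD D (f 1))
    (w : YR D 2) (hw : w ∈ YD D 2 N) : ∃ u v : YR D 2, w = u * r2 F1 + v * r2 F2 := by
  obtain ⟨W, hW, hr⟩ := y4_lift (k := k) hw
  have h1 := hG _ (theta_mem E hW)
  rw [Submodule.mem_span_range_iff_exists_fun] at h1
  obtain ⟨c, hc⟩ := h1
  choose C hC using fun i => y4_theta_surj E hrow hind (c i)
  rw [Fin.sum_univ_succ, Fin.sum_univ_succ] at hc
  have e0 : c 0 • y4_gen f E 0 = theta E (C 0 * F1) := by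
    rw [← y4_theta_mul_central E hrow (C 0) F1 _ hF1 (y4_bD_comm (f 0)), hC]
    rfl
  have e1 : c (Fin.succ 0) • y4_gen f E (Fin.succ 0) = theta E (C 1 * F2) := by
    rw [← y4_theta_mul_central E hrow (C 1) F2 _ hF2 (y4_bD_comm (f 1)), hC]
    rfl
  have e2 : ∀ i : Fin k, c i.succ.succ • y4_gen f E i.succ.succ =
      theta E (C i.succ.succ * zv D (k + 2) i.succ.succ) := by
    intro i
    rw [theta_mul_zv E hrow, hC]
    rfl
  rw [e0, e1, Finset.sum_congr rfl fun i _ => e2 i, ← map_sum, ← map_add, ← map_add] at hc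
  have h2 := theta_injective E hrow hind hc
  refine ⟨r2 (C 0), r2 (C 1), ?_⟩
  rw [← hr, ← h2, y4_r2_add, y4_r2_add, y4_r2_sum, y4_r2_mul, y4_r2_mul,
    Finset.sum_eq_zero fun i _ => ?_, add_zero]
  rw [y4_r2_mul, y4_r2_zv, mul_zero]

end left

theorem two_exact {K : Type u} [Field K] [IsAlgClosed K] {k p : ℕ} (hp : p.Prime)
    (hpK : (p.factorial : K) ≠ 0) (a : Fin (k + 2) → ℕ) (ha : Monotone a)
    (hpos : ∀ i, 1 ≤ a i) (hap : ∀ i, a i ≤ p)
    (f : Fin (k + 2) → MvPolynomial (Fin (k + 2)) K) (hf : ∀ i, (f i).IsHomogeneous (a i))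
    (hm : IsMPrimary (Ideal.span (Set.range f)))
    (I : Ideal (MvPolynomial (Fin (k + 2)) K)) (hI : HomIdeal I) (hfI : ∀ i, f i ∈ I) :
    ∃ M : Set (Fin (k + 2) →₀ ℕ), (∀ m ∈ M, ∀ i, m + Finsupp.single i 1 ∈ M) ∧
      Finsupp.single 0 (a 0) ∈ M ∧ Finsupp.single 1 (a 1) ∈ M ∧
      (∀ i : Fin k, Finsupp.single i.succ.succ p ∈ M) ∧
      ∀ d, finrank K (piece I d) = finrank K (piece (monIdeal K M) d) := by
  classical
  obtain ⟨h, hh, hm'⟩ := exists_mult a hpos hap f hf hm
  have hg : ∀ i, (f i * h i).IsHomogeneous p := by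
    intro i
    have h1 := (hf i).mul (hh i)
    rwa [Nat.add_sub_cancel' (hap i)] at h1
  obtain ⟨L, iL, D, iD, iK, iLD, E, c, hrow, hind, hminor, hE⟩ :=
    W.exists_point_gen hp hpK (fun i => f i * h i) hg hm'
  obtain ⟨N, hN⟩ := hm'
  have hle : ∀ d, VD D (piece I d) ≤ YD D (k + 2) d := fun d => VD_le_YD (G.piece_le I d)
  have hUc : ∀ d, (VD D (piece I d)).comap (theta E) ≤ YD D (k + 2) d := fun d =>
    (finrank_comap_theta E hrow hind _ (hle d)).1
  have hUr : ∀ d, finrank D ((VD D (piece I d)).comap (theta E)) = finrank K (piece I d) := by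
    intro d
    have hfin : Module.Finite K (piece I d) :=
      Submodule.finiteDimensional_of_le (G.piece_le I d)
    rw [(finrank_comap_theta E hrow hind _ (hle d)).2, finrank_VD]
  have hmulI : ∀ d, ∀ v ∈ piece I d, ∀ k, v * X k ∈ piece I (d + 1) := by
    intro d v hv k
    refine ⟨I.mul_mem_right _ hv.1, ?_⟩
    exact ((mem_homogeneousSubmodule _ _).1 hv.2).mul (isHomogeneous_X K k)
  have hFex : ∀ i, ∃ F ∈ YD D (k + 2) (a i), theta E F = bD D (f i) := by
    intro i
    have h1 : bD D (f i) ∈ YD D (k + 2) (a i) := by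
      rw [← VD_homogeneous (K := K)]
      exact Submodule.subset_span ⟨f i, hf i, rfl⟩
    rw [← map_theta E hrow hind (a i)] at h1
    obtain ⟨F, hF, hF'⟩ := h1
    exact ⟨F, hF, hF'⟩
  obtain ⟨F1, hF1, hF1'⟩ := hFex 0
  obtain ⟨F2, hF2, hF2'⟩ := hFex 1
  have hFU : ∀ i, ∀ F, theta E F = bD D (f i) → F ∈ (VD D (piece I (a i))).comap (theta E) := by
    intro i F hF
    change theta E F ∈ VD D (piece I (a i))
    rw [hF]
    exact Submodule.subset_span ⟨f i, ⟨hfI i, hf i⟩, rfl⟩
  have hmul : ∀ d, ∀ u ∈ (VD D (piece I d)).comap (theta E), ∀ i,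
      u * zv D (k + 2) i ∈ (VD D (piece I (d + 1))).comap (theta E) := by
    intro d u hu i
    change theta E (u * zv D (k + 2) i) ∈ VD D (piece I (d + 1))
    rw [theta_mul_zv E hrow]
    exact W.w17_VD_mul_lin (hmulI d) _ hu
  have hpp : ∀ i : Fin k, AddMonoidAlgebra.single (Finsupp.single i.succ.succ p) (1 : D) ∈
      (VD D (piece I p)).comap (theta E) := by
    intro i
    change theta E (AddMonoidAlgebra.single (Finsupp.single i.succ.succ p) (1 : D)) ∈
      VD D (piece I p)
    have h2 := W.w17_xim_pow E hrow 0 i.succ.succ p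
    rw [zero_add, m4_xim_zero, one_mul] at h2
    rw [theta_single, one_smul, h2, hE]
    refine Submodule.sum_mem _ fun j _ => Submodule.smul_mem _ _ ?_
    exact Submodule.subset_span ⟨f j * h j, ⟨I.mul_mem_right _ (hfI j), hg j⟩, rfl⟩
  have hcol : ∀ w ∈ YD D 2 N, ∃ u v : YR D 2, w = u * r2 F1 + v * r2 F2 := by
    refine y4_col E hrow hind f (fun w hw => ?_) hF1' hF2'
    refine y4_mem_left (fun j => f j * h j) (fun q hq => hN N le_rfl q hq) _ ?_ hw
    exact y4_gen_mem p hp.ne_zero f h E c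
      (hminor k _ _ (fun i j hij => Fin.succ_injective _ (Fin.succ_injective _ hij))
        (fun i j hij => Fin.succ_injective _ (Fin.succ_injective _ hij))) hE
  obtain ⟨M, hup, hM0, hM1, hMp, hcard⟩ :=
    slice (fun d => (VD D (piece I d)).comap (theta E)) hUc hmul (a 0) (a 1) p (hpos 0)
      (ha (Fin.zero_le 1)) hpp F1 F2 (hFU 0 F1 hF1') (hFU 1 F2 hF2') N hcol
  refine ⟨M, hup, hM0, hM1, hMp, fun d => ?_⟩
  have hfin : {m | m ∈ M ∧ ∑ i, m i = d}.Finite :=
    (deg_finite (k + 2) d).subset fun m hm => hm.2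
  rw [piece_monIdeal hup, G.finrank_restrictSupport _ hfin, hcard d, hUr]

theorem y4_egh_small {K : Type u} [Field K] {n : ℕ} (a : Fin n → ℕ) (ha : Monotone a)
    (hpos : ∀ i, 1 ≤ a i) (I : Ideal (MvPolynomial (Fin n) K)) (hI : HomIdeal I)
    (hX : ∀ i, (X i : MvPolynomial (Fin n) K) ^ a i ∈ I) : EGH a I := by
  classical
  refine W.egh_of_point (D := K) a ha hpos (fun i => Pi.single i 1)
    (fun i j _ k l => mul_comm _ _) ?_ I hI fun i => ?_
  · have h1 := (Pi.basisFun K (Fin n)).linearIndependent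
    have h2 : (⇑(Pi.basisFun K (Fin n)) : Fin n → Fin n → K) = fun i => Pi.single i 1 := by
      funext i
      exact Pi.basisFun_apply _ _ _
    rw [h2] at h1
    exact h1
  · have h1 : (M.lin (Pi.single i 1 : Fin n → K) : YR K n) =
        bD K (X i : MvPolynomial (Fin n) K) := by
      rw [bD_X]
      unfold M.lin zv
      rw [Finset.sum_eq_single i]
      · rw [Pi.single_eq_same]
      · intro j _ hj
        rw [Pi.single_eq_of_ne hj, AddMonoidAlgebra.single_zero]
      · intro h
        exact absurd (Finset.mem_univ i) h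
    rw [h1, ← map_pow]
    refine Submodule.subset_span ⟨X i ^ a i, ⟨hX i, ?_⟩, rfl⟩
    have h2 := (isHomogeneous_X K i).pow (a i)
    rw [one_mul] at h2
    exact h2

theorem y4_one {K : Type u} [Field K] (a : Fin 1 → ℕ)
    (f : Fin 1 → MvPolynomial (Fin 1) K) (hf : ∀ i, (f i).IsHomogeneous (a i))
    (hm : IsMPrimary (Ideal.span (Set.range f)))
    (I : Ideal (MvPolynomial (Fin 1) K)) (hfI : ∀ i, f i ∈ I) (i : Fin 1) :
    (X i : MvPolynomial (Fin 1) K) ^ a i ∈ I := by
  classical
  have hi : i = 0 := Subsingleton.elim _ _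
  subst hi
  have hext : ∀ m m' : Fin 1 →₀ ℕ, m 0 = m' 0 → m = m' := by
    intro m m' h
    refine Finsupp.ext fun i => ?_
    rw [Subsingleton.elim i 0, h]
  set c := coeff (Finsupp.single 0 (a 0)) (f 0) with hc
  have h1 : f 0 = C c * X 0 ^ a 0 := by
    ext m
    rw [coeff_C_mul, coeff_X_pow]
    by_cases h : Finsupp.single 0 (a 0) = m
    · rw [if_pos h, mul_one, hc, h]
    · rw [if_neg h, mul_zero]
      by_contra h2
      have h3 := M.isHomogeneous_iff_sum.1 (hf 0) m h2
      rw [Fin.sum_univ_one] at h3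
      apply h
      apply hext
      rw [h3, Finsupp.single_eq_same]
  have hc0 : c ≠ 0 := by
    intro h0
    rw [h0, C_0, zero_mul] at h1
    obtain ⟨N, hN⟩ := hm
    have h2 := hN N le_rfl (X 0 ^ N) (by
      have h2 := (isHomogeneous_X K (0 : Fin 1)).pow N
      rw [one_mul] at h2
      exact h2)
    rw [Ideal.mem_span_range_iff_exists_fun] at h2
    obtain ⟨q, hq⟩ := h2
    rw [Fin.sum_univ_one, h1, mul_zero] at hq
    exact pow_ne_zero N (X_ne_zero (R := K) (0 : Fin 1)) hq.symm
  have h2 : (X 0 : MvPolynomial (Fin 1) K) ^ a 0 = C c⁻¹ * f 0 := by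
    rw [h1, ← mul_assoc, ← C_mul, inv_mul_cancel₀ hc0, C_1, one_mul]
  rw [h2]
  exact I.mul_mem_left _ (hfI 0)

/-- Eisenbud-Green-Harris for the degrees `(a_0, a_1, p, ..., p)` -/
theorem egh_two {K : Type u} [Field K] [IsAlgClosed K] {n p : ℕ} (hp : p.Prime)
    (hpK : (p.factorial : K) ≠ 0) (a : Fin n → ℕ) (ha : Monotone a)
    (hpos : ∀ i, 1 ≤ a i) (hap : ∀ i, a i ≤ p) (hap2 : ∀ i : Fin n, 2 ≤ i.1 → a i = p)
    (f : Fin n → MvPolynomial (Fin n) K) (hf : ∀ i, (f i).IsHomogeneous (a i))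
    (hm : IsMPrimary (Ideal.span (Set.range f)))
    (I : Ideal (MvPolynomial (Fin n) K)) (hI : HomIdeal I) (hfI : ∀ i, f i ∈ I) : EGH a I := by
  match n, a, ha, hpos, hap, hap2, f, hf, hm, I, hI, hfI with
  | 0, a, ha, hpos, hap, hap2, f, hf, hm, I, hI, hfI =>
    exact y4_egh_small a ha hpos I hI fun i => i.elim0
  | 1, a, ha, hpos, hap, hap2, f, hf, hm, I, hI, hfI =>
    exact y4_egh_small a ha hpos I hI (y4_one a f hf hm I hfI)
  | k + 2, a, ha, hpos, hap, hap2, f, hf, hm, I, hI, hfI =>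
    obtain ⟨M, hup, h0, h1, hp', hdim⟩ := two_exact hp hpK a ha hpos hap f hf hm I hI hfI
    refine W.w17_egh a ha I hup (fun i => ?_) hdim
    refine Fin.cases h0 (fun i => ?_) i
    refine Fin.cases h1 (fun i => ?_) i
    rw [hap2 i.succ.succ (by simp)]
    exact hp' i

end Vale.Agent.P200.X
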