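import Vale.Agent.P200.W.Degen

/-!
Left ideals in two central variables over a division ring `D`: growth as for the type `(a1, a2)`.

`sh V = V z_0 + V z_1`.
* `sh_lt`: `V ≠ ⊥`, `V ≤ YD D 2 e` : `finrank V + 1 ≤ finrank (sh V)` (lowest monomials, or: if
  `V z_1 ≤ V z_0` then every element of `V` is divisible by `z_0` arbitrarily often).
* `sh_sh`: `finrank (sh (sh V)) + finrank V ≤ 2 * finrank (sh V)`: multiplication by `z_1` maps `sh V` onto
  `sh (sh V) / (sh V) z_0` and kills `V z_0`, which has dimension `finrank V`.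
* hence, if `finrank (sh V) ≤ finrank V + 1` then `finrank (sh^k V) ≤ finrank V + k`.
Proof of `two_var` (`1 ≤ a1 ≤ a2 ≤ e + 1`): suppose `finrank (T (e+1)) ≤ finrank (T e) + 1`.  Claim: `finrank (sh (T (e+1))) ≤
finrank (T (e+1)) + 1`.  If `T e ≠ ⊥` then `sh (T e) ≤ T (e+1)` and `finrank (sh (T e)) ≥ finrank (T e) + 1`, so
`sh (T e) = T (e+1)` and `sh_sh` gives the claim.  If `T e = ⊥` then `finrank (T (e+1)) ≤ 1` and the claim is clear
(`T (e+1) = D φ`, `sh = D φ z_0 + D φ z_1`).  So `finrank (sh^k (T (e+1))) ≤ finrank (T (e+1)) + k`.  By `hcol`, for a large `k`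
`YD D 2 (e+1+k) ≤ sh^k (T (e+1))` (`u φ1` with `u` of degree `e+1+k-a1` is in `sh^(e+1+k-a1) (D φ1) ≤ sh^k (T (e+1))`), so
`e + k + 2 ≤ finrank (T (e+1)) + k`, and `finrank (T (e+1)) ≤ finrank (YD D 2 (e+1)) = e + 2`.
(`hcol` holds for all degrees `≥ N` once it holds for `N`; take homogeneous components of `u`, `v`.)
-/

namespace Vale.Agent.P200.X

open MvPolynomial Module
open Vale.Agent.P200.B Vale.Agent.P200.G Vale.Agent.P200.L Vale.Agent.P200.M
open Vale.Agent.P200.W

section aux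

variable {D : Type*} [DivisionRing D]

theorem xx_twovar_single_comm {n : ℕ} (m : Fin n →₀ ℕ) (F : YR D n) :
    (AddMonoidAlgebra.single m 1 : YR D n) * F = F * AddMonoidAlgebra.single m 1 := by
  induction F using AddMonoidAlgebra.induction_linear with
  | zero => rw [zero_mul, mul_zero]
  | add a b ha hb => rw [mul_add, add_mul, ha, hb]
  | single m' c =>
    rw [AddMonoidAlgebra.single_mul_single, AddMonoidAlgebra.single_mul_single, one_mul, mul_one,
      add_comm]

theorem xx_twovar_zv_comm {n : ℕ} (i : Fin n) (F : YR D n) : zv D n i * F = F * zv D n i :=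
  xx_twovar_single_comm _ _

/-- multiplication by a variable -/
noncomputable def xxMulz (D : Type*) [DivisionRing D] (n : ℕ) (i : Fin n) : YR D n →ₗ[D] YR D n where
  toFun u := u * zv D n i
  map_add' _ _ := add_mul _ _ _
  map_smul' _ _ := smul_mul_assoc _ _ _

theorem xxMulz_apply {n : ℕ} (i : Fin n) (u : YR D n) : xxMulz D n i u = u * zv D n i := rfl

theorem xxMulz_injective {n : ℕ} (i : Fin n) : Function.Injective (xxMulz D n i) := by
  intro u v h
  rw [xxMulz_apply, xxMulz_apply] at h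
  apply deg_yr_ext
  intro m
  have h1 := w17_coeff_mul_zv u i (m + Finsupp.single i 1)
  have h2 := w17_coeff_mul_zv v i (m + Finsupp.single i 1)
  have h3 : (m + Finsupp.single i 1 : Fin n →₀ ℕ) i ≠ 0 := by
    rw [Finsupp.add_apply, Finsupp.single_eq_same]
    omega
  rw [if_neg h3, add_tsub_cancel_right] at h1 h2
  rw [← h1, ← h2, h]

theorem xxMulz_comm {n : ℕ} (i j : Fin n) (u : YR D n) :
    xxMulz D n i (xxMulz D n j u) = xxMulz D n j (xxMulz D n i u) := by
  rw [xxMulz_apply, xxMulz_apply, xxMulz_apply, xxMulz_apply, mul_assoc, mul_assoc,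
    xx_twovar_zv_comm]

theorem xx_twovar_mul_zv_mem {n e : ℕ} (i : Fin n) {u : YR D n} (hu : u ∈ YD D n e) :
    u * zv D n i ∈ YD D n (e + 1) := by
  intro m hm
  rw [w17_coeff_mul_zv] at hm
  by_cases h : m i = 0
  · rw [if_pos h] at hm
    exact absurd rfl hm
  · rw [if_neg h] at hm
    have h1 := hu _ hm
    have h2 : m = (m - Finsupp.single i 1) + Finsupp.single i 1 := by
      rw [tsub_add_cancel_of_le]
      rw [Finsupp.single_le_iff]
      omega
    rw [h2, m4_deg_add, m4_deg_single, h1]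

theorem xx_twovar_finite_YD (n e : ℕ) : Module.Finite D (YD D n e) := by
  have := finite_monD (D := D) {m : Fin n →₀ ℕ | ∑ i, m i = e} (fun m hm => hm)
  exact this

theorem xx_twovar_ext2 {f g : Fin 2 →₀ ℕ} (h0 : f 0 = g 0) (h1 : f 1 = g 1) : f = g := by
  ext i
  fin_cases i
  · exact h0
  · exact h1

theorem xx_twovar_finrank_YD (e : ℕ) : finrank D (YD D 2 e) = e + 1 := by
  have h1 := finrank_monD (D := D) {m : Fin 2 →₀ ℕ | ∑ i, m i = e} (fun m hm => hm)
  have h2 : finrank D (YD D 2 e) = finrank D (monD D {m : Fin 2 →₀ ℕ | ∑ i, m i = e}) := rfl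
  rw [h2, h1]
  have h3 : {m : Fin 2 →₀ ℕ | ∑ i, m i = e} =
      (fun j : ℕ => (Finsupp.equivFunOnFinite.symm ![j, e - j] : Fin 2 →₀ ℕ)) ''
        ((Finset.range (e + 1) : Finset ℕ) : Set ℕ) := by
    ext m
    rw [Set.mem_ofPred_eq, Fin.sum_univ_two, Set.mem_image]
    constructor
    · intro h
      refine ⟨m 0, ?_, ?_⟩
      · rw [Finset.mem_coe, Finset.mem_range]
        omega
      · apply xx_twovar_ext2
        · rfl
        · change e - m 0 = m 1
          omega
    · rintro ⟨j, hj, rfl⟩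
      rw [Finset.mem_coe, Finset.mem_range] at hj
      change j + (e - j) = e
      omega
  rw [h3, Set.ncard_image_of_injective, Set.ncard_coe_finset, Finset.card_range]
  intro i j hij
  exact DFunLike.congr_fun hij 0

/-- `V z_0 + V z_1` -/
noncomputable def xxSh (V : Submodule D (YR D 2)) : Submodule D (YR D 2) :=
  V.map (xxMulz D 2 0) ⊔ V.map (xxMulz D 2 1)

theorem xxSh_le {V W : Submodule D (YR D 2)} (h : ∀ u ∈ V, ∀ i, u * zv D 2 i ∈ W) :
    xxSh V ≤ W := by
  unfold xxSh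
  refine sup_le ?_ ?_
  · rintro _ ⟨u, hu, rfl⟩
    exact h u hu 0
  · rintro _ ⟨u, hu, rfl⟩
    exact h u hu 1

theorem mem_xxSh {V : Submodule D (YR D 2)} {u : YR D 2} (hu : u ∈ V) (i : Fin 2) :
    u * zv D 2 i ∈ xxSh V := by
  fin_cases i
  · exact Submodule.mem_sup_left ⟨u, hu, rfl⟩
  · exact Submodule.mem_sup_right ⟨u, hu, rfl⟩

theorem xxSh_le_YD {V : Submodule D (YR D 2)} {e : ℕ} (hV : V ≤ YD D 2 e) :
    xxSh V ≤ YD D 2 (e + 1) :=
  xxSh_le fun _ hu i => xx_twovar_mul_zv_mem i (hV hu)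

theorem xx_twovar_finrank_map (V : Submodule D (YR D 2)) (i : Fin 2) :
    finrank D (V.map (xxMulz D 2 i)) = finrank D V :=
  (Submodule.equivMapOfInjective _ (xxMulz_injective i) V).finrank_eq.symm

theorem xx_twovar_sh_sh {V : Submodule D (YR D 2)} {e : ℕ} (hV : V ≤ YD D 2 e) :
    finrank D (xxSh (xxSh V)) + finrank D V ≤ 2 * finrank D (xxSh V) := by
  have f0 := xx_twovar_finite_YD (D := D) 2 (e + 1)
  have f1 := xx_twovar_finite_YD (D := D) 2 (e + 2)
  have hW : xxSh V ≤ YD D 2 (e + 1) := xxSh_le_YD hV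
  have hle : ∀ i, (xxSh V).map (xxMulz D 2 i) ≤ YD D 2 (e + 2) := by
    rintro i _ ⟨u, hu, rfl⟩
    exact xx_twovar_mul_zv_mem i (hW hu)
  have g0 : Module.Finite D ((xxSh V).map (xxMulz D 2 0)) :=
    Submodule.finiteDimensional_of_le (hle 0)
  have g1 : Module.Finite D ((xxSh V).map (xxMulz D 2 1)) :=
    Submodule.finiteDimensional_of_le (hle 1)
  have h1 := Submodule.finrank_sup_add_finrank_inf_eq ((xxSh V).map (xxMulz D 2 0))
    ((xxSh V).map (xxMulz D 2 1))
  rw [xx_twovar_finrank_map, xx_twovar_finrank_map] at h1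
  have h2 : (V.map (xxMulz D 2 0)).map (xxMulz D 2 1) ≤
      (xxSh V).map (xxMulz D 2 0) ⊓ (xxSh V).map (xxMulz D 2 1) := by
    rintro _ ⟨_, ⟨u, hu, rfl⟩, rfl⟩
    refine ⟨⟨xxMulz D 2 1 u, mem_xxSh hu 1, ?_⟩, ⟨xxMulz D 2 0 u, mem_xxSh hu 0, rfl⟩⟩
    rw [xxMulz_comm]
  have g2 : Module.Finite D
      ((xxSh V).map (xxMulz D 2 0) ⊓ (xxSh V).map (xxMulz D 2 1) : Submodule D (YR D 2)) :=
    Submodule.finiteDimensional_of_le (S₂ := (xxSh V).map (xxMulz D 2 0)) inf_le_left
  have h3 := Submodule.finrank_mono h2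
  rw [xx_twovar_finrank_map, xx_twovar_finrank_map] at h3
  have h4 : finrank D (xxSh (xxSh V)) = finrank D
      ((xxSh V).map (xxMulz D 2 0) ⊔ (xxSh V).map (xxMulz D 2 1) : Submodule D (YR D 2)) := rfl
  omega

theorem xx_twovar_fam {T : ℕ → Submodule D (YR D 2)}
    (hmul : ∀ e, ∀ u ∈ T e, ∀ i, u * zv D 2 i ∈ T (e + 1)) :
    ∀ (s : ℕ) (m : Fin 2 →₀ ℕ), ∑ i, m i = s → ∀ a, ∀ u ∈ T a,
      u * AddMonoidAlgebra.single m 1 ∈ T (a + s) := by
  intro s
  induction s with
  | zero =>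
    intro m hm a u hu
    have h0 : m = 0 := by
      ext i
      exact (Finset.sum_eq_zero_iff.1 hm) i (Finset.mem_univ i)
    subst h0
    rw [← AddMonoidAlgebra.one_def, mul_one]
    exact hu
  | succ s ih =>
    intro m hm a u hu
    obtain ⟨k, hk⟩ : ∃ k, m k ≠ 0 := by
      by_contra hc
      push Not at hc
      rw [Finset.sum_eq_zero fun i _ => hc i] at hm
      omega
    have h2 : m = (m - Finsupp.single k 1) + Finsupp.single k 1 := by
      rw [tsub_add_cancel_of_le]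
      rw [Finsupp.single_le_iff]
      omega
    have h3 : ∑ i, (m - Finsupp.single k 1 : Fin 2 →₀ ℕ) i = s := by
      rw [h2, m4_deg_add, m4_deg_single] at hm
      omega
    have h4 := hmul _ _ (ih _ h3 a u hu) k
    have h5 : u * AddMonoidAlgebra.single m 1 =
        u * AddMonoidAlgebra.single (m - Finsupp.single k 1) 1 * zv D 2 k := by
      unfold zv
      rw [mul_assoc, AddMonoidAlgebra.single_mul_single, mul_one, ← h2]
    rw [h5]
    exact h4

/-- all elements whose part of degree `M` is in `S` -/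
def xxPart (M : ℕ) (S : Submodule D (YR D 2)) : Submodule D (YR D 2) where
  carrier := {x | ∃ y ∈ S, ∀ m : Fin 2 →₀ ℕ, ∑ i, m i = M → x.coeff m = y.coeff m}
  add_mem' := by
    rintro a b ⟨y, hy, h1⟩ ⟨z, hz, h2⟩
    refine ⟨y + z, S.add_mem hy hz, fun m hm => ?_⟩
    rw [AddMonoidAlgebra.coeff_add, Finsupp.add_apply, AddMonoidAlgebra.coeff_add,
      Finsupp.add_apply, h1 m hm, h2 m hm]
  zero_mem' := ⟨0, S.zero_mem, fun _ _ => rfl⟩
  smul_mem' := by
    rintro c a ⟨y, hy, h1⟩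
    refine ⟨c • y, S.smul_mem _ hy, fun m hm => ?_⟩
    rw [AddMonoidAlgebra.coeff_smul_apply, AddMonoidAlgebra.coeff_smul_apply, h1 m hm]

theorem xx_twovar_part {T : ℕ → Submodule D (YR D 2)} (hT : ∀ e, T e ≤ YD D 2 e)
    (hmul : ∀ e, ∀ u ∈ T e, ∀ i, u * zv D 2 i ∈ T (e + 1)) {a : ℕ} {φ : YR D 2}
    (hφ : φ ∈ T a) (M : ℕ) (u : YR D 2) : u * φ ∈ xxPart M (T M) := by
  induction u using AddMonoidAlgebra.induction_linear with
  | zero =>
    rw [zero_mul]
    exact Submodule.zero_mem _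
  | add x y hx hy =>
    rw [add_mul]
    exact Submodule.add_mem _ hx hy
  | single m c =>
    have h1 : (AddMonoidAlgebra.single m c : YR D 2) * φ =
        c • (φ * AddMonoidAlgebra.single m 1) := by
      rw [← xx_twovar_single_comm, ← smul_mul_assoc]
      congr 1
      rw [AddMonoidAlgebra.smul_single, smul_eq_mul, mul_one]
    have h2 := xx_twovar_fam hmul _ m rfl a φ hφ
    rw [h1]
    refine Submodule.smul_mem _ _ ?_
    by_cases h : a + ∑ i, m i = M
    · rw [h] at h2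
      exact ⟨_, h2, fun _ _ => rfl⟩
    · refine ⟨0, Submodule.zero_mem _, fun m' hm' => ?_⟩
      by_contra hc
      rw [AddMonoidAlgebra.coeff_zero, Finsupp.zero_apply] at hc
      exact h ((hT _ h2 m' hc).symm.trans hm')

theorem xx_twovar_colon {φ1 φ2 : YR D 2} {N : ℕ}
    (hcol : ∀ w ∈ YD D 2 N, ∃ u v : YR D 2, w = u * φ1 + v * φ2) (k : ℕ) :
    ∀ m : Fin 2 →₀ ℕ, ∑ i, m i = N + k →
      ∃ u v : YR D 2, (AddMonoidAlgebra.single m 1 : YR D 2) = u * φ1 + v * φ2 := by
  induction k with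
  | zero =>
    intro m hm
    apply hcol
    intro m' hm'
    rw [AddMonoidAlgebra.coeff_single, Finsupp.single_apply] at hm'
    by_cases h : m = m'
    · rw [← h]
      exact hm
    · rw [if_neg h] at hm'
      exact absurd rfl hm'
  | succ k ih =>
    intro m hm
    obtain ⟨j, hj⟩ : ∃ j, m j ≠ 0 := by
      by_contra hc
      push Not at hc
      rw [Finset.sum_eq_zero fun i _ => hc i] at hm
      omega
    have h2 : m = (m - Finsupp.single j 1) + Finsupp.single j 1 := by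
      rw [tsub_add_cancel_of_le]
      rw [Finsupp.single_le_iff]
      omega
    have h3 : ∑ i, (m - Finsupp.single j 1 : Fin 2 →₀ ℕ) i = N + k := by
      rw [h2, m4_deg_add, m4_deg_single] at hm
      omega
    obtain ⟨u, v, h4⟩ := ih _ h3
    refine ⟨u * zv D 2 j, v * zv D 2 j, ?_⟩
    have h5 : (AddMonoidAlgebra.single m 1 : YR D 2) =
        AddMonoidAlgebra.single (m - Finsupp.single j 1) 1 * zv D 2 j := by
      unfold zv
      rw [AddMonoidAlgebra.single_mul_single, mul_one, ← h2]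
    rw [h5, h4, add_mul, mul_assoc, mul_assoc, mul_assoc, mul_assoc, xx_twovar_zv_comm,
      xx_twovar_zv_comm]

theorem xx_twovar_full {T : ℕ → Submodule D (YR D 2)} (hT : ∀ e, T e ≤ YD D 2 e)
    (hmul : ∀ e, ∀ u ∈ T e, ∀ i, u * zv D 2 i ∈ T (e + 1))
    {a1 a2 : ℕ} {φ1 φ2 : YR D 2} (h1 : φ1 ∈ T a1) (h2 : φ2 ∈ T a2)
    {N : ℕ} (hcol : ∀ w ∈ YD D 2 N, ∃ u v : YR D 2, w = u * φ1 + v * φ2) (M : ℕ) (hM : N ≤ M) :
    YD D 2 M ≤ T M := by
  obtain ⟨k, rfl⟩ := Nat.exists_eq_add_of_le hM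
  have hs : ∀ m : Fin 2 →₀ ℕ, ∑ i, m i = N + k →
      (AddMonoidAlgebra.single m 1 : YR D 2) ∈ T (N + k) := by
    intro m hm
    obtain ⟨u, v, h3⟩ := xx_twovar_colon hcol k m hm
    obtain ⟨y, hy, h4⟩ := Submodule.add_mem _ (xx_twovar_part hT hmul h1 (N + k) u)
      (xx_twovar_part hT hmul h2 (N + k) v)
    rw [← h3] at h4
    have h5 : (AddMonoidAlgebra.single m 1 : YR D 2) = y := by
      apply deg_yr_ext
      intro m'
      by_cases h6 : ∑ i, m' i = N + k
      · exact h4 m' h6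
      · have h7 : y.coeff m' = 0 := by
          by_contra hc
          exact h6 (hT _ hy m' hc)
        rw [h7, AddMonoidAlgebra.coeff_single, Finsupp.single_apply, if_neg]
        rintro rfl
        exact h6 hm
    rw [h5]
    exact hy
  intro w hw
  rw [m4_sum_single w]
  refine Submodule.sum_mem _ fun m hm => ?_
  have h6 : (AddMonoidAlgebra.single m (w.coeff m) : YR D 2) =
      w.coeff m • AddMonoidAlgebra.single m 1 := by
    rw [AddMonoidAlgebra.smul_single, smul_eq_mul, mul_one]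
  rw [h6]
  exact Submodule.smul_mem _ _ (hs m (hw m (Finsupp.mem_support_iff.1 hm)))

theorem xx_twovar_growth {V W : Submodule D (YR D 2)} {e : ℕ} (hW : W ≤ YD D 2 (e + 1))
    (hmul : ∀ u ∈ V, ∀ i, u * zv D 2 i ∈ W) (h0 : 0 < finrank D V) :
    finrank D V + 1 ≤ finrank D W := by
  have f0 := xx_twovar_finite_YD (D := D) 2 (e + 1)
  have f1 : Module.Finite D W := Submodule.finiteDimensional_of_le hW
  by_contra hlt
  have h1 : V.map (xxMulz D 2 0) ≤ W := by
    rintro _ ⟨u, hu, rfl⟩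
    exact hmul u hu 0
  have h2 : V.map (xxMulz D 2 0) = W := by
    apply Submodule.eq_of_le_of_finrank_le h1
    rw [xx_twovar_finrank_map]
    omega
  have hne : V ≠ ⊥ := by
    intro h
    rw [h, finrank_bot] at h0
    omega
  obtain ⟨u, hu, hu0⟩ := Submodule.exists_mem_ne_zero_of_ne_bot hne
  have hex : ∃ k, ∃ u ∈ V, ∃ m : Fin 2 →₀ ℕ, u.coeff m ≠ 0 ∧ m 0 = k := by
    by_contra hc
    apply hu0
    apply deg_yr_ext
    intro m
    by_contra hm
    exact hc ⟨m 0, u, hu, m, hm, rfl⟩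
  classical
  obtain ⟨v, hv, m, hm, hk⟩ := Nat.find_spec hex
  have h3 : v * zv D 2 1 ∈ W := hmul v hv 1
  rw [← h2] at h3
  obtain ⟨w, hw, hwv⟩ := h3
  rw [xxMulz_apply] at hwv
  have h4 := congrArg (fun x : YR D 2 => x.coeff (m + Finsupp.single 1 1)) hwv
  change (w * zv D 2 0).coeff (m + Finsupp.single 1 1) =
    (v * zv D 2 1).coeff (m + Finsupp.single 1 1) at h4
  have h5 : (m + Finsupp.single 1 1 : Fin 2 →₀ ℕ) 1 ≠ 0 := by
    rw [Finsupp.add_apply, Finsupp.single_eq_same]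
    omega
  have h6 : (m + Finsupp.single 1 1 : Fin 2 →₀ ℕ) 0 = m 0 := by
    rw [Finsupp.add_apply, Finsupp.single_eq_of_ne (by decide), add_zero]
  rw [w17_coeff_mul_zv, w17_coeff_mul_zv, if_neg h5, add_tsub_cancel_right] at h4
  by_cases h7 : (m + Finsupp.single 1 1 : Fin 2 →₀ ℕ) 0 = 0
  · rw [if_pos h7] at h4
    exact hm h4.symm
  · rw [if_neg h7] at h4
    have h8 : (m + Finsupp.single 1 1 - Finsupp.single 0 1 : Fin 2 →₀ ℕ) 0 = m 0 - 1 := by
      rw [Finsupp.tsub_apply, h6, Finsupp.single_eq_same]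
    have h9 := Nat.find_min' hex ⟨w, hw, _, (by rw [h4]; exact hm), h8⟩
    omega

end aux

theorem one_var_growth {D : Type*} [DivisionRing D] {T : ℕ → Submodule D (YR D 2)}
    (hT : ∀ e, T e ≤ YD D 2 e) (hmul : ∀ e, ∀ u ∈ T e, ∀ i, u * zv D 2 i ∈ T (e + 1)) (e : ℕ)
    (h0 : 0 < finrank D (T e)) : finrank D (T e) + 1 ≤ finrank D (T (e + 1)) :=
  xx_twovar_growth (hT (e + 1)) (hmul e) h0

theorem two_var {D : Type*} [DivisionRing D] {T : ℕ → Submodule D (YR D 2)}
    (hT : ∀ e, T e ≤ YD D 2 e) (hmul : ∀ e, ∀ u ∈ T e, ∀ i, u * zv D 2 i ∈ T (e + 1))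
    {a1 a2 : ℕ} (h12 : a1 ≤ a2) {φ1 φ2 : YR D 2} (h1 : φ1 ∈ T a1) (h2 : φ2 ∈ T a2)
    {N : ℕ} (hcol : ∀ w ∈ YD D 2 N, ∃ u v : YR D 2, w = u * φ1 + v * φ2)
    (e : ℕ) (he : a2 ≤ e + 1) :
    finrank D (T e) + 2 ≤ finrank D (T (e + 1)) ∨ finrank D (T (e + 1)) = e + 2 := by
  rcases Nat.lt_or_ge (finrank D (T e) + 1) (finrank D (T (e + 1))) with hlt | hge
  · exact Or.inl hlt
  right
  have fY := fun d => xx_twovar_finite_YD (D := D) 2 d
  have fT : ∀ d, Module.Finite D (T d) := fun d =>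
    have := fY d
    Submodule.finiteDimensional_of_le (hT d)
  -- the first step
  have hfirst : finrank D (xxSh (T (e + 1))) ≤ finrank D (T (e + 1)) + 1 := by
    by_cases hb : finrank D (T e) = 0
    · have g0 := fT (e + 1)
      have h3 : finrank D (xxSh (T (e + 1))) ≤ finrank D (T (e + 1)) + finrank D (T (e + 1)) := by
        have h4 := Submodule.finrank_add_le_finrank_add_finrank
          ((T (e + 1)).map (xxMulz D 2 0)) ((T (e + 1)).map (xxMulz D 2 1))
        rw [xx_twovar_finrank_map, xx_twovar_finrank_map] at h4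
        exact h4
      omega
    · have h3 : xxSh (T e) ≤ T (e + 1) := xxSh_le (hmul e)
      have h4 : finrank D (T e) + 1 ≤ finrank D (xxSh (T e)) :=
        xx_twovar_growth (xxSh_le_YD (hT e)) (fun u hu i => mem_xxSh hu i) (Nat.pos_of_ne_zero hb)
      have h5 : xxSh (T e) = T (e + 1) := by
        have := fT (e + 1)
        apply Submodule.eq_of_le_of_finrank_le h3
        omega
      have h6 := xx_twovar_sh_sh (hT e)
      rw [h5] at h6
      rw [h5] at h4
      omega
  -- the iterated shadows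
  have hS : ∀ k, xxSh^[k] (T (e + 1)) ≤ YD D 2 (e + 1 + k) := by
    intro k
    induction k with
    | zero => exact hT (e + 1)
    | succ k ih =>
      rw [Function.iterate_succ_apply']
      exact xxSh_le_YD ih
  have hgr : ∀ k, finrank D (xxSh^[k + 1] (T (e + 1))) ≤ finrank D (xxSh^[k] (T (e + 1))) + 1 := by
    intro k
    induction k with
    | zero => exact hfirst
    | succ k ih =>
      have h3 : finrank D (xxSh^[k + 1 + 1] (T (e + 1))) + finrank D (xxSh^[k] (T (e + 1))) ≤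
          2 * finrank D (xxSh^[k + 1] (T (e + 1))) := by
        rw [Function.iterate_succ_apply' xxSh (k + 1), Function.iterate_succ_apply' xxSh k]
        exact xx_twovar_sh_sh (hS k)
      omega
  have hgr2 : ∀ k, finrank D (xxSh^[k] (T (e + 1))) ≤ finrank D (T (e + 1)) + k := by
    intro k
    induction k with
    | zero => exact le_rfl
    | succ k ih =>
      have h3 := hgr k
      omega
  -- the modified family
  obtain ⟨T', hT'1, hT'2⟩ : ∃ T' : ℕ → Submodule D (YR D 2), (∀ d, d ≤ e + 1 → T' d = T d) ∧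
      ∀ k, T' (e + 1 + k) = xxSh^[k] (T (e + 1)) := by
    refine ⟨fun d => if d ≤ e + 1 then T d else xxSh^[d - (e + 1)] (T (e + 1)), ?_, ?_⟩
    · intro d hd
      exact if_pos hd
    · intro k
      rcases Nat.eq_zero_or_pos k with rfl | hk
      · exact if_pos le_rfl
      · change (if e + 1 + k ≤ e + 1 then T (e + 1 + k)
          else xxSh^[e + 1 + k - (e + 1)] (T (e + 1))) = _
        rw [if_neg (by omega), Nat.add_sub_cancel_left]
  have hT' : ∀ d, T' d ≤ YD D 2 d := by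
    intro d
    rcases Nat.lt_or_ge d (e + 1) with h | h
    · rw [hT'1 d h.le]
      exact hT d
    · obtain ⟨k, rfl⟩ := Nat.exists_eq_add_of_le h
      rw [hT'2]
      exact hS k
  have hmul' : ∀ d, ∀ u ∈ T' d, ∀ i, u * zv D 2 i ∈ T' (d + 1) := by
    intro d u hu i
    rcases Nat.lt_or_ge d (e + 1) with h | h
    · rw [hT'1 d h.le] at hu
      rw [hT'1 (d + 1) h]
      exact hmul d u hu i
    · obtain ⟨k, rfl⟩ := Nat.exists_eq_add_of_le h
      rw [hT'2] at hu
      rw [add_assoc, hT'2, Function.iterate_succ_apply']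
      exact mem_xxSh hu i
  have h1' : φ1 ∈ T' a1 := by
    rw [hT'1 a1 (h12.trans he)]
    exact h1
  have h2' : φ2 ∈ T' a2 := by
    rw [hT'1 a2 he]
    exact h2
  have h3 := xx_twovar_full hT' hmul' h1' h2' hcol (e + 1 + N) (by omega)
  rw [hT'2] at h3
  have h4 : Module.Finite D (xxSh^[N] (T (e + 1)) : Submodule D (YR D 2)) :=
    have := fY (e + 1 + N)
    Submodule.finiteDimensional_of_le (hS N)
  have h5 := Submodule.finrank_mono h3
  rw [xx_twovar_finrank_YD] at h5
  have h6 := hgr2 N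
  have h7 : finrank D (T (e + 1)) ≤ e + 1 + 1 := by
    have := fY (e + 1)
    rw [← xx_twovar_finrank_YD (D := D) (e + 1)]
    exact Submodule.finrank_mono (hT (e + 1))
  omega

end Vale.Agent.P200.X
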